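import Vale.Agent.P157.Rsb.Heat
import Vale.Agent.P157.Models
import Vale.Agent.P157.Scalar
import Mathlib.MeasureTheory.Measure.CharacteristicFunction.Basic

/-!
The cube as a finite set, the law of two Gaussian linear forms, and the sum of Gaussian vectors.
-/

open MeasureTheory ProbabilityTheory Complex
open scoped BigOperators

namespace Vale.Agent.P157.Rsb

/-- The configuration of a Boolean vector. -/
noncomputable def sg {N : ℕ} (σ : Fin N → Bool) (i : Fin N) : ℝ := if σ i then 1 else -1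

lemma sg_sq {N : ℕ} (σ : Fin N → Bool) (i : Fin N) : sg σ i ^ 2 = 1 := by
  unfold sg; split <;> norm_num

lemma integral_cube {N : ℕ} {F : (Fin N → ℝ) → ℝ} (hF : Measurable F) :
    ∫ x, F x ∂isingMeasure N = (2⁻¹ : ℝ) ^ N * ∑ σ : Fin N → Bool, F (sg σ) := by
  set P : Measure Bool := (2⁻¹ : NNReal) • (Measure.dirac true + Measure.dirac false)
  have : IsProbabilityMeasure P :=
    ⟨by simp [P, ENNReal.smul_def, ENNReal.inv_two_add_inv_two]⟩
  have hm : P.map (fun b : Bool => if b then (1 : ℝ) else -1)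
      = (2⁻¹ : NNReal) • (Measure.dirac (1 : ℝ) + Measure.dirac (-1 : ℝ)) := by
    have hf : Measurable fun b : Bool => if b then (1 : ℝ) else -1 := measurable_of_countable _
    simp [P, Measure.map_add _ _ hf, Measure.map_smul, Measure.map_dirac' hf]
  have hpi : isingMeasure N
      = (Measure.pi fun _ : Fin N => P).map (fun σ i => if σ i then (1 : ℝ) else -1) := by
    have hp : ∀ _ : Fin N, IsProbabilityMeasure P := fun _ => inferInstance
    have := Measure.pi_map_pi (μ := fun _ : Fin N => P)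
      (f := fun _ (b : Bool) => if b then (1 : ℝ) else -1)
      (fun _ => (measurable_of_countable _).aemeasurable)
    simp only [hm] at this
    exact this.symm
  rw [hpi, integral_map (measurable_of_countable _).aemeasurable hF.aestronglyMeasurable,
    integral_fintype .of_finite, Finset.mul_sum]
  refine Finset.sum_congr rfl fun σ _ => ?_
  rw [← Set.univ_pi_singleton σ, measureReal_def, Measure.pi_pi, ENNReal.toReal_prod, smul_eq_mul]
  congr 1
  have : ∀ i, (P {σ i}).toReal = 2⁻¹ := fun i => by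
    cases σ i <;> simp [P, ENNReal.smul_def]
  simp [this]

variable {ι : Type*} [Fintype ι]

/-- The law of two unit forms with overlap `R ∈ [0,1]`. -/
lemma map_pair (x y : ι → ℝ) (hx : ∑ j, x j ^ 2 = 1) (hy : ∑ j, y j ^ 2 = 1) {R : ℝ}
    (hR : R = ∑ j, x j * y j) (hR0 : 0 ≤ R) (hR1 : R ≤ 1) :
    (gaussVec ι).map (fun g => (∑ j, g j * x j, ∑ j, g j * y j))
      = (((gaussianReal 0 1).prod ((gaussianReal 0 1).prod (gaussianReal 0 1))).map fun u =>
          (Real.sqrt R * u.1 + Real.sqrt (1 - R) * u.2.1,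
            Real.sqrt R * u.1 + Real.sqrt (1 - R) * u.2.2)) := by
  refine Measure.ext_of_charFunDual (funext fun L => ?_)
  set a := L (1, 0)
  set b := L (0, 1)
  have hL : ∀ p q : ℝ, L (p, q) = p * a + q * b := fun p q => by
    rw [show ((p, q) : ℝ × ℝ) = p • ((1, 0) : ℝ × ℝ) + q • ((0, 1) : ℝ × ℝ) by simp, map_add,
      map_smul, map_smul]
    rfl
  rw [charFunDual_apply, charFunDual_apply, integral_map (by fun_prop) (by fun_prop),
    integral_map (by fun_prop) (by fun_prop)]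
  simp only [hL]
  have e1 : ∀ g : ι → ℝ, (∑ j, g j * x j) * a + (∑ j, g j * y j) * b
      = ∑ j, g j * (a * x j + b * y j) := fun g => by
    simp only [Finset.sum_mul, ← Finset.sum_add_distrib]
    exact Finset.sum_congr rfl fun j _ => by ring
  simp_rw [e1]
  rw [gauss_cexp]
  have hexp : ∀ c : ℝ, ∫ u : ℝ, cexp ((c * u : ℝ) * I) ∂(gaussianReal 0 1) = cexp (-(c : ℂ) ^ 2 / 2) := fun c => by
    have h := charFun_gaussianReal (μ := 0) (v := 1) c
    rw [charFun_apply_real] at h
    push_cast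
    rw [h]
    congr 1
    push_cast; ring
  have e2 : ∀ u : ℝ × ℝ × ℝ, cexp ((((Real.sqrt R * u.1 + Real.sqrt (1 - R) * u.2.1) * a
        + (Real.sqrt R * u.1 + Real.sqrt (1 - R) * u.2.2) * b : ℝ) : ℂ) * I)
      = cexp (((Real.sqrt R * (a + b) * u.1 : ℝ) : ℂ) * I) *
        (cexp (((Real.sqrt (1 - R) * a * u.2.1 : ℝ) : ℂ) * I) *
          cexp (((Real.sqrt (1 - R) * b * u.2.2 : ℝ) : ℂ) * I)) := fun u => by
    rw [← Complex.exp_add, ← Complex.exp_add]
    congr 1
    push_cast; ring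
  simp_rw [e2]
  rw [integral_prod_mul (fun u : ℝ => cexp (((Real.sqrt R * (a + b) * u : ℝ) : ℂ) * I))
      (fun u : ℝ × ℝ => cexp (((Real.sqrt (1 - R) * a * u.1 : ℝ) : ℂ) * I) *
        cexp (((Real.sqrt (1 - R) * b * u.2 : ℝ) : ℂ) * I)),
    integral_prod_mul (fun u : ℝ => cexp (((Real.sqrt (1 - R) * a * u : ℝ) : ℂ) * I))
      (fun u : ℝ => cexp (((Real.sqrt (1 - R) * b * u : ℝ) : ℂ) * I)),
    hexp, hexp, hexp, Complex.ofReal_exp, ← Complex.exp_add, ← Complex.exp_add]
  congr 1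
  have hs : ∑ j, (a * x j + b * y j) ^ 2 = a ^ 2 + b ^ 2 + 2 * (a * b) * R := by
    calc ∑ j, (a * x j + b * y j) ^ 2
        = a ^ 2 * ∑ j, x j ^ 2 + b ^ 2 * ∑ j, y j ^ 2 + 2 * (a * b) * ∑ j, x j * y j := by
          simp only [Finset.mul_sum, ← Finset.sum_add_distrib]
          exact Finset.sum_congr rfl fun j _ => by ring
      _ = _ := by rw [hx, hy, hR]; ring
  have r1 : ((Real.sqrt R : ℝ) : ℂ) ^ 2 = (R : ℂ) := by
    rw [← Complex.ofReal_pow, Real.sq_sqrt hR0]
  have r2 : ((Real.sqrt (1 - R) : ℝ) : ℂ) ^ 2 = 1 - (R : ℂ) := by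
    rw [← Complex.ofReal_pow, Real.sq_sqrt (by linarith)]; simp
  rw [hs]
  push_cast
  simp only [mul_pow, r1, r2]
  ring

lemma abs_overlap_le {x y : ι → ℝ} (hx : ∑ j, x j ^ 2 = 1) (hy : ∑ j, y j ^ 2 = 1) :
    |∑ j, x j * y j| ≤ 1 := by
  rw [← sq_le_one_iff_abs_le_one]
  simpa [hx, hy] using Finset.sum_mul_sq_le_sq_mul_sq Finset.univ x y

lemma cov_eq (x y : ι → ℝ) (hx : ∑ j, x j ^ 2 = 1) (hy : ∑ j, y j ^ 2 = 1)
    (hR : 0 ≤ ∑ j, x j * y j) {h : ℝ → ℝ} (hm : Measurable h) {C : ℝ} (hb : ∀ t, |h t| ≤ C) :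
    ∫ g, h (∑ j, g j * x j) * h (∑ j, g j * y j) ∂gaussVec ι = sqMean h (∑ j, x j * y j) := by
  set R := ∑ j, x j * y j
  have hC : 0 ≤ C := (abs_nonneg _).trans (hb 0)
  have hhm : Measurable fun p : ℝ × ℝ => h p.1 * h p.2 := by fun_prop
  have hl : ∫ g, h (∑ j, g j * x j) * h (∑ j, g j * y j) ∂gaussVec ι
      = ∫ p, h p.1 * h p.2 ∂(gaussVec ι).map (fun g => (∑ j, g j * x j, ∑ j, g j * y j)) :=
    (integral_map (φ := fun g : ι → ℝ => (∑ j, g j * x j, ∑ j, g j * y j))
      (f := fun p : ℝ × ℝ => h p.1 * h p.2) (by fun_prop) hhm.aestronglyMeasurable).symm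
  rw [hl, map_pair x y hx hy rfl hR (abs_le.1 (abs_overlap_le hx hy)).2,
    integral_map (by fun_prop) hhm.aestronglyMeasurable,
    integral_prod _ (bdd_int (C := C * C) (by fun_prop) fun u => by
      rw [abs_mul]; exact mul_le_mul (hb _) (hb _) (abs_nonneg _) hC)]
  refine integral_congr_ae (ae_of_all _ fun z => ?_)
  simp only [hs, sq]
  exact integral_prod_mul (fun w => h (Real.sqrt R * z + Real.sqrt (1 - R) * w))
    (fun w => h (Real.sqrt R * z + Real.sqrt (1 - R) * w))

/-- The sum of `M` independent Gaussian vectors. -/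
lemma map_sum_vec : ∀ M : ℕ, (Measure.pi fun _ : Fin M => gaussVec ι).map
      (fun g j => ∑ a, g a j) = (gaussVec ι).map (fun z j => Real.sqrt M * z j)
  | 0 => by
    simp [Measure.map_const]
  | M + 1 => by
    have hsucc := (measurePreserving_piFinSuccAbove (fun _ : Fin (M + 1) => gaussVec ι) 0).symm
    rw [← hsucc.map_eq, Measure.map_map (by fun_prop) (MeasurableEquiv.measurable _)]
    have e : ((fun (g : Fin (M + 1) → ι → ℝ) j => ∑ a, g a j) ∘
        (MeasurableEquiv.piFinSuccAbove (fun _ : Fin (M + 1) => ι → ℝ) 0).symm)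
        = (fun z : (ι → ℝ) × (ι → ℝ) => fun j => z.1 j + z.2 j) ∘
          Prod.map id (fun (g : Fin M → ι → ℝ) j => ∑ a, g a j) := by
      funext z j
      simp [MeasurableEquiv.piFinSuccAbove, Fin.insertNthEquiv, Fin.sum_univ_succ]
    rw [e, ← Measure.map_map (by fun_prop) (by fun_prop),
      ← Measure.map_prod_map _ _ measurable_id (by fun_prop)]
    simp only [Measure.map_id]
    rw [map_sum_vec M]
    conv_lhs => rw [← Measure.map_id (μ := gaussVec ι)]
    rw [Measure.map_prod_map _ _ (by fun_prop) (by fun_prop), Measure.map_map (by fun_prop)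
      (by fun_prop)]
    have := gaussVec_rotate (ι := ι) (s := 1) (t := (M : ℝ)) zero_le_one (Nat.cast_nonneg M)
    simp only [Real.sqrt_one, one_mul] at this
    rw [show ((M + 1 : ℕ) : ℝ) = 1 + (M : ℝ) by push_cast; ring, ← this]
    simp only [Measure.map_id]
    rfl

lemma log_le_affine {y A : ℝ} (hy : 0 < y) (hA : 0 < A) :
    Real.log y ≤ Real.log A + y / A - 1 := by
  have := Real.log_le_sub_one_of_pos (div_pos hy hA)
  rw [Real.log_div hy.ne' hA.ne'] at this
  linarith

lemma integrable_exp_abs_mul (c : ℝ) : Integrable (fun z => Real.exp (c * |z|)) (gaussianReal 0 1) := by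
  refine ((integrable_exp_mul_gaussianReal c).add (integrable_exp_mul_gaussianReal (-c))).mono'
    (Continuous.aestronglyMeasurable (by fun_prop)) (ae_of_all _ fun z => ?_)
  rw [Real.norm_eq_abs, Real.abs_exp, Pi.add_apply]
  rcases le_total 0 z with h | h
  · rw [abs_of_nonneg h]; linarith [Real.exp_pos (-c * z)]
  · rw [abs_of_nonpos h, mul_neg, ← neg_mul]; linarith [Real.exp_pos (c * z)]

lemma integrable_pow_exp (n : ℕ) (c : ℝ) :
    Integrable (fun z => |z| ^ n * Real.exp (c * |z|)) (gaussianReal 0 1) := by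
  refine ((integrable_exp_abs_mul (c + 1)).const_mul (n.factorial : ℝ)).mono'
    (Continuous.aestronglyMeasurable (by fun_prop)) (ae_of_all _ fun z => ?_)
  rw [Real.norm_eq_abs, abs_mul, Real.abs_exp, abs_pow, abs_abs, add_mul, one_mul, Real.exp_add]
  have h := Real.pow_div_factorial_le_exp |z| (abs_nonneg z) n
  rw [div_le_iff₀ (by positivity)] at h
  calc |z| ^ n * Real.exp (c * |z|) ≤ (Real.exp |z| * n.factorial) * Real.exp (c * |z|) :=
        mul_le_mul_of_nonneg_right h (Real.exp_pos _).le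
    _ = _ := by ring

/-- The moment generating function of `|z|` to second order. -/
lemma log_exp_abs : ∃ K, 0 ≤ K ∧ ∀ t ∈ Set.Icc (0 : ℝ) 1,
    Real.log (∫ z, Real.exp (t * |z|) ∂(gaussianReal 0 1))
      ≤ t * Real.sqrt (2 / Real.pi) + t ^ 2 / 2 * (1 - 2 / Real.pi) + K * t ^ 3 := by
  set c := Real.sqrt (2 / Real.pi)
  set J := ∫ z, |z| ^ 3 * Real.exp (1 * |z|) ∂(gaussianReal 0 1)
  have hJ : 0 ≤ J := integral_nonneg fun _ => by positivity
  refine ⟨J + (c + 1 + J) ^ 3, by positivity, fun t ht => ?_⟩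
  have i1 : Integrable (fun z : ℝ => |z|) (gaussianReal 0 1) := by simpa using integrable_abs_pow_gauss 1
  have i2 := integrable_pow_gauss 2
  have i3 := integrable_pow_exp 3 1
  have iE := integrable_exp_abs_mul t
  have hA : ∫ z, Real.exp (t * |z|) ∂(gaussianReal 0 1) ≤ 1 + (t * c + t ^ 2 / 2 + t ^ 3 * J) := by
    have h := integral_mono iE ((integrable_const 1).add ((i1.const_mul t).add
      ((i2.const_mul (t ^ 2 / 2)).add (i3.const_mul (t ^ 3))))) fun z => by
        simp only [Pi.add_apply]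
        have he := Complex.norm_exp_sub_sum_le_norm_mul_exp ((t * |z| : ℝ) : ℂ) 3
        simp only [Finset.sum_range_succ, Finset.sum_range_zero, Nat.factorial, zero_add, pow_zero,
          pow_one, Complex.norm_real, Real.norm_eq_abs] at he
        rw [← Complex.ofReal_exp, show ((Real.exp (t * |z|) : ℝ) : ℂ) - (1 / ((1 : ℕ) : ℂ) +
            ((t * |z| : ℝ) : ℂ) / ((1 * 1 : ℕ) : ℂ) + ((t * |z| : ℝ) : ℂ) ^ 2 / ((((1 + 1) * (1 * 1)) : ℕ) : ℂ))
            = ((Real.exp (t * |z|) - 1 - t * |z| - (t * |z|) ^ 2 / 2 : ℝ) : ℂ) by push_cast; ring,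
          Complex.norm_real, Real.norm_eq_abs, abs_of_nonneg (mul_nonneg ht.1 (abs_nonneg z))] at he
        have h1 : Real.exp (t * |z|) ≤ Real.exp (1 * |z|) :=
          Real.exp_le_exp.2 (mul_le_mul_of_nonneg_right ht.2 (abs_nonneg _))
        have h2 := mul_le_mul_of_nonneg_left h1 (pow_nonneg (mul_nonneg ht.1 (abs_nonneg z)) 3)
        rw [mul_pow] at he h2
        rw [mul_pow, sq_abs] at he
        linarith [(abs_le.1 he).2]
    rw [integral_add' (integrable_const 1) ((i1.const_mul t).add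
      ((i2.const_mul (t ^ 2 / 2)).add (i3.const_mul (t ^ 3)))),
      integral_add' (i1.const_mul t) ((i2.const_mul (t ^ 2 / 2)).add (i3.const_mul (t ^ 3))),
      integral_add' (i2.const_mul (t ^ 2 / 2)) (i3.const_mul (t ^ 3)), integral_const_mul,
      integral_const_mul, integral_const_mul, gauss_abs, gauss_sq] at h
    refine h.trans (le_of_eq ?_)
    simp [J, c]
    ring
  set v := t * c + t ^ 2 / 2 + t ^ 3 * J with hvd
  have hc0 : 0 ≤ c := Real.sqrt_nonneg _
  have ht3 : 0 ≤ t ^ 3 := pow_nonneg ht.1 3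
  have hv : 0 ≤ v := add_nonneg (add_nonneg (mul_nonneg ht.1 hc0) (by positivity))
    (mul_nonneg ht3 hJ)
  have hpos : 0 < ∫ z, Real.exp (t * |z|) ∂(gaussianReal 0 1) := by
    have : ∫ _z : ℝ, (1 : ℝ) ∂(gaussianReal 0 1) ≤ ∫ z, Real.exp (t * |z|) ∂(gaussianReal 0 1) :=
      integral_mono (integrable_const 1) iE fun z => Real.one_le_exp (mul_nonneg ht.1 (abs_nonneg z))
    simp at this
    linarith
  refine ((Real.log_le_log hpos hA).trans (log_one_add_le hv)).trans ?_
  have hlow : t * c ≤ v := by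
    have : 0 ≤ t ^ 2 / 2 + t ^ 3 * J := by positivity
    linarith
  have hup : v ≤ t * (c + 1 + J) := by
    have h1 : t ^ 2 ≤ t := by nlinarith [ht.1, ht.2]
    have h2 : t ^ 3 ≤ t := by nlinarith [ht.1, ht.2]
    nlinarith [mul_le_mul_of_nonneg_right h2 hJ]
  have hsq := pow_le_pow_left₀ (mul_nonneg ht.1 hc0) hlow 2
  have hcu := pow_le_pow_left₀ hv hup 3
  rw [mul_pow, show c ^ 2 = 2 / Real.pi from Real.sq_sqrt (by positivity)] at hsq
  rw [mul_pow] at hcu
  have hnn : 0 ≤ (c + 1 + J) ^ 3 := by positivity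
  nlinarith [mul_nonneg ht3 hnn]

end Vale.Agent.P157.Rsb
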