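import Mathlib.Probability.Distributions.Gaussian.Real
import Mathlib.Analysis.SpecialFunctions.Log.Basic

/-!
The replica-symmetric functional on the Ising cube for a general potential.
-/

open MeasureTheory ProbabilityTheory

namespace Vale.Agent.P157

/-- `E_w exp f(y + √(1-q) w)`. -/
noncomputable def rsPhi (f : ℝ → ℝ) (q y : ℝ) : ℝ :=
  ∫ w, Real.exp (f (y + Real.sqrt (1 - q) * w)) ∂gaussianReal 0 1

/-- `r(q) = E (∂_y log Φ_q(√q z))²`, with `f'` the derivative of `f`. -/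
noncomputable def rsOverlap (f f' : ℝ → ℝ) (q : ℝ) : ℝ :=
  ∫ z, ((∫ w, Real.exp (f (Real.sqrt q * z + Real.sqrt (1 - q) * w))
      * f' (Real.sqrt q * z + Real.sqrt (1 - q) * w) ∂gaussianReal 0 1)
    / rsPhi f q (Real.sqrt q * z)) ^ 2 ∂gaussianReal 0 1

/-- The replica-symmetric functional on the cube. -/
noncomputable def rsValue (α : ℝ) (f f' : ℝ → ℝ) (q : ℝ) : ℝ :=
  α * ((∫ z, Real.log (rsPhi f q (Real.sqrt q * z)) ∂gaussianReal 0 1)
      - rsOverlap f f' q * (1 - q) / 2)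
    + ∫ z, Real.log (Real.cosh (Real.sqrt (α * rsOverlap f f' q) * z)) ∂gaussianReal 0 1

end Vale.Agent.P157
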