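import Vale.Agent.P157.Rsb.Heat
import Vale.Agent.P157.Rsb.Defs
import Vale.Agent.P157.Transition

/-!
Lower bounds on the replica-symmetric functional of an even potential of small curvature.
-/

open MeasureTheory ProbabilityTheory Set Filter Topology

namespace Vale.Agent.P157.Rsb

/-- An even bounded potential with three bounded derivatives and small curvature. -/
structure Pot (f f₁ f₂ f₃ : ℝ → ℝ) (C a : ℝ) : Prop where
  d0 : ∀ x, HasDerivAt f (f₁ x) x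
  d1 : ∀ x, HasDerivAt f₁ (f₂ x) x
  d2 : ∀ x, HasDerivAt f₂ (f₃ x) x
  bdd : ∀ x, |f x| ≤ C ∧ |f₁ x| ≤ C ∧ |f₂ x| ≤ C ∧ |f₃ x| ≤ C
  even : ∀ x, f (-x) = f x
  curv : ∀ x, f₂ x + f₁ x ^ 2 ≤ a
  small : a < 1 / 2

/-- `exp f`. -/
noncomputable def eF (f : ℝ → ℝ) (x : ℝ) : ℝ := Real.exp (f x)

/-- First derivative of `exp f`. -/
noncomputable def eF1 (f f₁ : ℝ → ℝ) (x : ℝ) : ℝ := Real.exp (f x) * f₁ x

/-- Second derivative of `exp f`. -/
noncomputable def eF2 (f f₁ f₂ : ℝ → ℝ) (x : ℝ) : ℝ := Real.exp (f x) * (f₂ x + f₁ x ^ 2)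

/-- Third derivative of `exp f`. -/
noncomputable def eF3 (f f₁ f₂ f₃ : ℝ → ℝ) (x : ℝ) : ℝ :=
  Real.exp (f x) * (f₃ x + 3 * f₁ x * f₂ x + f₁ x ^ 3)

/-- `∂_y log Φ_t`. -/
noncomputable def pD (f f₁ : ℝ → ℝ) (t y : ℝ) : ℝ := hs (eF1 f f₁) t y / hs (eF f) t y

/-- `∂²_y log Φ_t`. -/
noncomputable def pD2 (f f₁ f₂ : ℝ → ℝ) (t y : ℝ) : ℝ :=
  hs (eF2 f f₁ f₂) t y / hs (eF f) t y - pD f f₁ t y ^ 2

/-- `∂³_y log Φ_t`. -/
noncomputable def pD3 (f f₁ f₂ f₃ : ℝ → ℝ) (t y : ℝ) : ℝ :=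
  hs (eF3 f f₁ f₂ f₃) t y / hs (eF f) t y
    - 3 * pD f f₁ t y * (hs (eF2 f f₁ f₂) t y / hs (eF f) t y) + 2 * pD f f₁ t y ^ 3

/-- `r(t)`. -/
noncomputable def rr (f f₁ : ℝ → ℝ) (t : ℝ) : ℝ := ∫ z, pD f f₁ t (Real.sqrt t * z) ^ 2 ∂(gaussianReal 0 1)

/-- `E log Φ_t(√t z) - E f - r(t) (1-t)/2`. -/
noncomputable def gap (f f₁ : ℝ → ℝ) (t : ℝ) : ℝ :=
  (∫ z, Real.log (hs (eF f) t (Real.sqrt t * z)) ∂(gaussianReal 0 1)) - (∫ z, f z ∂(gaussianReal 0 1))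
    - rr f f₁ t * (1 - t) / 2

lemma rsPhi_eq (f : ℝ → ℝ) (q y : ℝ) : rsPhi f q y = hs (eF f) q y := rfl

lemma rsOverlap_eq (f f₁ : ℝ → ℝ) (q : ℝ) : rsOverlap f f₁ q = rr f f₁ q := rfl

lemma rsValue_eq (α : ℝ) (f f₁ : ℝ → ℝ) (q : ℝ) : rsValue α f f₁ q
    = α * (∫ z, f z ∂(gaussianReal 0 1)) + α * gap f f₁ q + logCoshAvg (α * rr f f₁ q) := by
  simp only [rsValue, logCoshAvg, gap, rsPhi_eq, rsOverlap_eq]
  ring

variable {f f₁ f₂ f₃ : ℝ → ℝ} {C a : ℝ}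

namespace Pot

lemma C_nonneg (W : Pot f f₁ f₂ f₃ C a) : 0 ≤ C := (abs_nonneg _).trans (W.bdd 0).1

lemma odd1 (W : Pot f f₁ f₂ f₃ C a) (x : ℝ) : f₁ (-x) = -f₁ x := by
  have h : HasDerivAt (fun y => f (-y)) (f₁ (-x) * -1) x := (W.d0 (-x)).comp x (hasDerivAt_neg x)
  simp only [W.even] at h
  have := h.unique (W.d0 x)
  linarith

lemma exp_bd (W : Pot f f₁ f₂ f₃ C a) (x : ℝ) :
    Real.exp (-C) ≤ Real.exp (f x) ∧ Real.exp (f x) ≤ Real.exp C :=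
  ⟨Real.exp_le_exp.2 (abs_le.1 (W.bdd x).1).1, Real.exp_le_exp.2 (abs_le.1 (W.bdd x).1).2⟩

lemma eF_bdd (W : Pot f f₁ f₂ f₃ C a) : ∃ K, ∀ x, |eF f x| ≤ K ∧ |eF1 f f₁ x| ≤ K ∧
    |eF2 f f₁ f₂ x| ≤ K ∧ |eF3 f f₁ f₂ f₃ x| ≤ K := by
  have hC := W.C_nonneg
  refine ⟨Real.exp C * (1 + C + C ^ 2 + (C + 3 * C * C + C ^ 3)), fun x => ?_⟩
  obtain ⟨-, h1, h2, h3⟩ := W.bdd x
  have he := (W.exp_bd x).2
  have hp : (0 : ℝ) ≤ Real.exp C := (Real.exp_pos _).le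
  have s1 : f₁ x ^ 2 ≤ C ^ 2 := by
    rw [← sq_abs (f₁ x)]; exact pow_le_pow_left₀ (abs_nonneg _) h1 2
  have s3 : |f₁ x ^ 3| ≤ C ^ 3 := by rw [abs_pow]; exact pow_le_pow_left₀ (abs_nonneg _) h1 3
  have hn : 0 ≤ C ^ 2 ∧ 0 ≤ C ^ 3 ∧ 0 ≤ C * C := ⟨by positivity, by positivity, by positivity⟩
  have key : ∀ u v : ℝ, |u| ≤ v → v ≤ 1 + C + C ^ 2 + (C + 3 * C * C + C ^ 3) →
      |Real.exp (f x) * u| ≤ Real.exp C * (1 + C + C ^ 2 + (C + 3 * C * C + C ^ 3)) :=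
    fun u v hu hv => by
      rw [abs_mul, Real.abs_exp]
      exact mul_le_mul he (hu.trans hv) (abs_nonneg _) hp
  refine ⟨?_, key _ C h1 (by linarith), key _ (C + C ^ 2) ?_ (by linarith),
    key _ (C + 3 * C * C + C ^ 3) ?_ (by linarith)⟩
  · simpa [eF] using key 1 1 (by simp) (by linarith)
  · exact (abs_add_le _ _).trans (add_le_add h2 (by rwa [abs_of_nonneg (sq_nonneg _)]))
  · refine (abs_add_three _ _ _).trans (add_le_add (add_le_add h3 ?_) s3)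
    rw [abs_mul, abs_mul, abs_of_nonneg (by norm_num : (0 : ℝ) ≤ 3)]
    exact mul_le_mul (mul_le_mul_of_nonneg_left h1 (by norm_num)) h2 (abs_nonneg _) (by positivity)

lemma smF (W : Pot f f₁ f₂ f₃ C a) : Sm f f₁ f₂ :=
  ⟨W.d0, W.d1, C, fun x => ⟨(W.bdd x).1, (W.bdd x).2.1, (W.bdd x).2.2.1⟩⟩

lemma smF1 (W : Pot f f₁ f₂ f₃ C a) : Sm f₁ f₂ f₃ :=
  ⟨W.d1, W.d2, C, fun x => ⟨(W.bdd x).2.1, (W.bdd x).2.2.1, (W.bdd x).2.2.2⟩⟩

lemma de0 (W : Pot f f₁ f₂ f₃ C a) (x : ℝ) : HasDerivAt (eF f) (eF1 f f₁ x) x := (W.d0 x).exp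

lemma de1 (W : Pot f f₁ f₂ f₃ C a) (x : ℝ) :
    HasDerivAt (eF1 f f₁) (eF2 f f₁ f₂ x) x := by
  refine ((W.d0 x).exp.mul (W.d1 x)).congr_deriv ?_
  simp only [eF2]
  ring

lemma de2 (W : Pot f f₁ f₂ f₃ C a) (x : ℝ) :
    HasDerivAt (eF2 f f₁ f₂) (eF3 f f₁ f₂ f₃ x) x := by
  refine ((W.d0 x).exp.mul ((W.d2 x).add ((W.d1 x).pow 2))).congr_deriv ?_
  simp [eF3]
  ring

lemma smE (W : Pot f f₁ f₂ f₃ C a) : Sm (eF f) (eF1 f f₁) (eF2 f f₁ f₂) := by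
  obtain ⟨K, hK⟩ := W.eF_bdd
  exact ⟨W.de0, W.de1, K, fun x => ⟨(hK x).1, (hK x).2.1, (hK x).2.2.1⟩⟩

lemma smE1 (W : Pot f f₁ f₂ f₃ C a) :
    Sm (eF1 f f₁) (eF2 f f₁ f₂) (eF3 f f₁ f₂ f₃) := by
  obtain ⟨K, hK⟩ := W.eF_bdd
  exact ⟨W.de1, W.de2, K, fun x => ⟨(hK x).2.1, (hK x).2.2.1, (hK x).2.2.2⟩⟩

lemma int_arg (W : Pot f f₁ f₂ f₃ C a) (t y : ℝ) :
    Integrable (fun w => Real.exp (f (y + Real.sqrt (1 - t) * w))) (gaussianReal 0 1) :=
  bdd_int (C := Real.exp C) (by have := W.smF.cont; fun_prop) fun w => by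
    rw [Real.abs_exp]; exact (W.exp_bd _).2

lemma phi_ge (W : Pot f f₁ f₂ f₃ C a) (t y : ℝ) : Real.exp (-C) ≤ hs (eF f) t y := by
  have := integral_mono (integrable_const (Real.exp (-C))) (W.int_arg t y)
    fun w => (W.exp_bd _).1
  simpa [hs, eF] using this

lemma phi_pos (W : Pot f f₁ f₂ f₃ C a) (t y : ℝ) : 0 < hs (eF f) t y :=
  (Real.exp_pos _).trans_le (W.phi_ge t y)

/-- Uniform bound on the derivatives of `log Φ`. -/
lemma pD_bdd (W : Pot f f₁ f₂ f₃ C a) : ∃ K, ∀ t y, |Real.log (hs (eF f) t y)| ≤ K ∧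
    |pD f f₁ t y| ≤ K ∧ |pD2 f f₁ f₂ t y| ≤ K ∧ |pD3 f f₁ f₂ f₃ t y| ≤ K ∧
    |hs (eF2 f f₁ f₂) t y / hs (eF f) t y| ≤ K := by
  obtain ⟨K, hK⟩ := W.eF_bdd
  set L := K * Real.exp C with hL
  have hK0 : 0 ≤ K := (abs_nonneg _).trans (hK 0).1
  have hL0 : 0 ≤ L := by positivity
  have hd : ∀ (g : ℝ → ℝ), (∀ x, |g x| ≤ K) → ∀ t y, |hs g t y / hs (eF f) t y| ≤ L := by
    intro g hg t y
    rw [abs_div, abs_of_pos (W.phi_pos t y), div_le_iff₀ (W.phi_pos t y)]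
    calc |hs g t y| ≤ K := abs_hs_le hg t y
      _ = L * Real.exp (-C) := by rw [hL, mul_assoc, ← Real.exp_add]; simp
      _ ≤ _ := mul_le_mul_of_nonneg_left (W.phi_ge t y) hL0
  refine ⟨|C| + L + (L + L ^ 2) + (L + 3 * L * L + 2 * L ^ 3), fun t y => ?_⟩
  have h1 := hd _ (fun x => (hK x).2.1) t y
  have h2 := hd _ (fun x => (hK x).2.2.1) t y
  have h3 := hd _ (fun x => (hK x).2.2.2) t y
  change |pD f f₁ t y| ≤ L at h1
  have hhi : hs (eF f) t y ≤ Real.exp C := by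
    have := integral_mono (W.int_arg t y) (integrable_const (Real.exp C)) fun w => (W.exp_bd _).2
    simpa [hs, eF] using this
  have hsq : pD f f₁ t y ^ 2 ≤ L ^ 2 := by
    rw [← sq_abs]; exact pow_le_pow_left₀ (abs_nonneg _) h1 2
  have hn : 0 ≤ L ^ 2 ∧ 0 ≤ L ^ 3 ∧ 0 ≤ L * L ∧ 0 ≤ |C| :=
    ⟨by positivity, by positivity, by positivity, abs_nonneg C⟩
  refine ⟨?_, by linarith, ?_, ?_, by linarith⟩
  · refine le_trans ?_ (by linarith : |C| ≤ _)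
    rw [abs_of_nonneg W.C_nonneg, abs_le]
    constructor
    · simpa using Real.log_le_log (Real.exp_pos _) (W.phi_ge t y)
    · simpa using Real.log_le_log (W.phi_pos t y) hhi
  · refine le_trans ((abs_sub _ _).trans (add_le_add h2 ?_)) (by linarith : L + L ^ 2 ≤ _)
    rwa [abs_of_nonneg (sq_nonneg _)]
  · refine le_trans ((abs_add_le _ _).trans (add_le_add ((abs_sub _ _).trans (add_le_add h3 ?_)) ?_))
      (by linarith : L + 3 * L * L + 2 * L ^ 3 ≤ _)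
    · rw [abs_mul, abs_mul, abs_of_nonneg (by norm_num : (0 : ℝ) ≤ 3)]
      exact mul_le_mul (mul_le_mul_of_nonneg_left h1 (by norm_num)) h2 (abs_nonneg _)
        (by positivity)
    · rw [abs_mul, abs_two, abs_pow]
      exact mul_le_mul_of_nonneg_left (pow_le_pow_left₀ (abs_nonneg _) h1 3) (by norm_num)

lemma deriv_pD (W : Pot f f₁ f₂ f₃ C a) (t y : ℝ) :
    HasDerivAt (pD f f₁ t) (pD2 f f₁ f₂ t y) y := by
  have h0 := (W.phi_pos t y).ne'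
  refine ((W.smE1.deriv_y t y).div (W.smE.deriv_y t y) h0).congr_deriv ?_
  simp only [pD2, pD]
  field_simp

lemma deriv_pD2 (W : Pot f f₁ f₂ f₃ C a) (t y : ℝ) :
    HasDerivAt (pD2 f f₁ f₂ t) (pD3 f f₁ f₂ f₃ t y) y := by
  have h0 := (W.phi_pos t y).ne'
  refine (((W.smE1.deriv_y1 t y).div (W.smE.deriv_y t y) h0).sub
    ((W.deriv_pD t y).pow 2)).congr_deriv ?_
  simp [pD3, pD2, pD]
  field_simp
  ring

lemma deriv_t_pD (W : Pot f f₁ f₂ f₃ C a) {t : ℝ} (ht : t ∈ Ioo (0 : ℝ) 1) (z : ℝ) :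
    HasDerivAt (fun u => pD f f₁ u (Real.sqrt u * z))
      (z / (2 * Real.sqrt t) * pD2 f f₁ f₂ t (Real.sqrt t * z)
        + -(pD3 f f₁ f₂ f₃ t (Real.sqrt t * z) / 2
          + pD f f₁ t (Real.sqrt t * z) * pD2 f f₁ f₂ t (Real.sqrt t * z))) t := by
  have h0 := (W.phi_pos t (Real.sqrt t * z)).ne'
  refine ((W.smE1.deriv_t ht z).div (W.smE.deriv_t ht z) h0).congr_deriv ?_
  simp only [pD3, pD2, pD]
  generalize Real.sqrt t * z = y at h0 ⊢
  field_simp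
  ring

lemma continuous_pD (W : Pot f f₁ f₂ f₃ C a) :
    Continuous fun p : ℝ × ℝ => pD f f₁ p.1 p.2 := by
  obtain ⟨K, hK⟩ := W.eF_bdd
  exact (continuous_hs W.smE1.cont fun x => (hK x).2.1).div
    (continuous_hs W.smE.cont fun x => (hK x).1) fun p => (W.phi_pos _ _).ne'

lemma measurable_pD (W : Pot f f₁ f₂ f₃ C a) (t : ℝ) : Measurable (pD f f₁ t) :=
  (measurable_hs W.smE1.cont.measurable t).div (measurable_hs W.smE.cont.measurable t)

lemma measurable_pD2 (W : Pot f f₁ f₂ f₃ C a) (t : ℝ) : Measurable (pD2 f f₁ f₂ t) :=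
  ((measurable_hs W.smE1.cont1.measurable t).div (measurable_hs W.smE.cont.measurable t)).sub
    ((W.measurable_pD t).pow_const 2)

lemma measurable_pD3 (W : Pot f f₁ f₂ f₃ C a) (t : ℝ) : Measurable (pD3 f f₁ f₂ f₃ t) := by
  have h0 := measurable_hs W.smE.cont.measurable t
  exact (((measurable_hs W.smE1.meas2 t).div h0).sub (((W.measurable_pD t).const_mul 3).mul
    ((measurable_hs W.smE1.cont1.measurable t).div h0))).add
      (((W.measurable_pD t).pow_const 3).const_mul 2)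

lemma continuous_rr (W : Pot f f₁ f₂ f₃ C a) : Continuous (rr f f₁) := by
  obtain ⟨K, hK⟩ := W.pD_bdd
  exact continuous_outer (A := fun u y => pD f f₁ u y ^ 2) (W.continuous_pD.pow 2) (C := K ^ 2)
    fun u y => by rw [abs_pow]; exact pow_le_pow_left₀ (abs_nonneg _) (hK u y).2.1 2

lemma continuous_gap (W : Pot f f₁ f₂ f₃ C a) : Continuous (gap f f₁) := by
  obtain ⟨K, hK⟩ := W.pD_bdd
  obtain ⟨L, hL⟩ := W.eF_bdd
  have h := continuous_outer (A := fun u y => Real.log (hs (eF f) u y))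
    ((continuous_hs W.smE.cont fun x => (hL x).1).log fun p => (W.phi_pos _ _).ne') (C := K)
    fun u y => (hK u y).1
  exact (h.sub continuous_const).sub ((W.continuous_rr.mul (by fun_prop)).div_const 2)

lemma rr_one (W : Pot f f₁ f₂ f₃ C a) : rr f f₁ 1 = ∫ z, f₁ z ^ 2 ∂(gaussianReal 0 1) := by
  refine integral_congr_ae (ae_of_all _ fun z => ?_)
  have := (Real.exp_pos (f z)).ne'
  simp [pD, hs_one, eF, eF1]

lemma gap_one (W : Pot f f₁ f₂ f₃ C a) : gap f f₁ 1 = 0 := by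
  simp [gap, hs_one, eF]

lemma rr_nonneg (f f₁ : ℝ → ℝ) (t : ℝ) : 0 ≤ rr f f₁ t := integral_nonneg fun _ => sq_nonneg _

/-- The derivative of `r`. -/
lemma deriv_rr (W : Pot f f₁ f₂ f₃ C a) {t : ℝ} (ht : t ∈ Ioo (0 : ℝ) 1) :
    HasDerivAt (rr f f₁) (∫ z, pD2 f f₁ f₂ t (Real.sqrt t * z) ^ 2
      - 2 * pD f f₁ t (Real.sqrt t * z) ^ 2 * pD2 f f₁ f₂ t (Real.sqrt t * z) ∂(gaussianReal 0 1)) t := by
  obtain ⟨K, hK⟩ := W.pD_bdd
  have hK0 : 0 ≤ K := (abs_nonneg _).trans (hK 0 0).1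
  have key := outer_deriv (A := fun u y => pD f f₁ u y ^ 2)
    (P := fun u y => 2 * (pD f f₁ u y * pD2 f f₁ f₂ u y))
    (P₁ := fun u y => 2 * (pD2 f f₁ f₂ u y * pD2 f f₁ f₂ u y
      + pD f f₁ u y * pD3 f f₁ f₂ f₃ u y))
    (Q := fun u y => -(pD f f₁ u y * pD3 f f₁ f₂ f₃ u y
      + 2 * (pD f f₁ u y * (pD f f₁ u y * pD2 f f₁ f₂ u y))))
    (C := 4 * K ^ 2 + 2 * K ^ 3) ht (fun u => (W.measurable_pD u).pow_const 2)
    (((W.measurable_pD t).mul (W.measurable_pD2 t)).const_mul 2)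
    ((((W.measurable_pD t).mul (W.measurable_pD3 t)).add
      (((W.measurable_pD t).mul ((W.measurable_pD t).mul (W.measurable_pD2 t))).const_mul 2)).neg)
    (fun u hu z => by
      refine ((W.deriv_t_pD hu z).pow 2).congr_deriv ?_
      simp
      ring)
    (fun y => ((W.deriv_pD t y).mul (W.deriv_pD2 t y)).const_mul 2) ?_
  · refine key.congr_deriv (integral_congr_ae (ae_of_all _ fun z => ?_))
    dsimp only
    ring
  · intro u y
    obtain ⟨-, h1, h2, h3, -⟩ := hK u y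
    have hp3 : (0 : ℝ) ≤ K ^ 3 := by positivity
    have h11 := mul_le_mul h1 h1 (abs_nonneg _) hK0
    have h12 := mul_le_mul h1 h2 (abs_nonneg _) hK0
    have h13 := mul_le_mul h1 h3 (abs_nonneg _) hK0
    have h22 := mul_le_mul h2 h2 (abs_nonneg _) hK0
    have h112 := mul_le_mul h1 h12 (by positivity) hK0
    refine ⟨?_, ?_, ?_, ?_⟩
    · rw [abs_pow]; nlinarith
    · rw [abs_mul, abs_mul, abs_two]; nlinarith
    · rw [abs_mul, abs_two]
      have := abs_add_le (pD2 f f₁ f₂ u y * pD2 f f₁ f₂ u y) (pD f f₁ u y * pD3 f f₁ f₂ f₃ u y)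
      rw [abs_mul, abs_mul] at this
      nlinarith
    · rw [abs_neg]
      refine (abs_add_le _ _).trans ?_
      simp only [abs_mul, abs_two]
      nlinarith

lemma pD_odd (W : Pot f f₁ f₂ f₃ C a) (t y : ℝ) : pD f f₁ t (-y) = -pD f f₁ t y := by
  simp only [pD]
  rw [hs_neg_odd (fun x => by simp [eF1, W.even, W.odd1]) t y W.smE1.cont.measurable,
    hs_neg_even (fun x => by simp [eF, W.even]) t y W.smE.cont.measurable, neg_div]

lemma pD2_le (W : Pot f f₁ f₂ f₃ C a) (t y : ℝ) : pD2 f f₁ f₂ t y ≤ a := by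
  obtain ⟨K, hK⟩ := W.eF_bdd
  have h : hs (eF2 f f₁ f₂) t y ≤ a * hs (eF f) t y := by
    simp only [hs, ← integral_const_mul]
    refine integral_mono (bdd_int (W.smE.meas2.comp (by fun_prop)) fun w => (hK _).2.2.1)
      ((W.int_arg t y).const_mul a) fun w => ?_
    simp only [eF2, eF]
    rw [mul_comm a]
    exact mul_le_mul_of_nonneg_left (W.curv _) (Real.exp_pos _).le
  have h2 : hs (eF2 f f₁ f₂) t y / hs (eF f) t y ≤ a := (div_le_iff₀ (W.phi_pos t y)).2 h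
  simp only [pD2]
  linarith [sq_nonneg (pD f f₁ t y)]

/-- `r' ≥ (1 - 2a) r`. -/
lemma deriv_rr_ge (W : Pot f f₁ f₂ f₃ C a) {t : ℝ} (ht : t ∈ Ioo (0 : ℝ) 1) :
    (1 - 2 * a) * rr f f₁ t ≤ ∫ z, pD2 f f₁ f₂ t (Real.sqrt t * z) ^ 2
      - 2 * pD f f₁ t (Real.sqrt t * z) ^ 2 * pD2 f f₁ f₂ t (Real.sqrt t * z) ∂(gaussianReal 0 1) := by
  obtain ⟨K, hK⟩ := W.pD_bdd
  have m1 : Measurable fun z => pD f f₁ t (Real.sqrt t * z) :=
    (W.measurable_pD t).comp (by fun_prop)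
  have m2 : Measurable fun z => pD2 f f₁ f₂ t (Real.sqrt t * z) :=
    (W.measurable_pD2 t).comp (by fun_prop)
  have i1 : Integrable (fun z => pD f f₁ t (Real.sqrt t * z) ^ 2) (gaussianReal 0 1) :=
    bdd_int (m1.pow_const 2) (C := K ^ 2) fun z => by
      rw [abs_pow]; exact pow_le_pow_left₀ (abs_nonneg _) (hK _ _).2.1 2
  have i2 : Integrable (fun z => pD2 f f₁ f₂ t (Real.sqrt t * z) ^ 2) (gaussianReal 0 1) :=
    bdd_int (m2.pow_const 2) (C := K ^ 2) fun z => by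
      rw [abs_pow]; exact pow_le_pow_left₀ (abs_nonneg _) (hK _ _).2.2.1 2
  have hp : rr f f₁ t ≤ t * ∫ z, pD2 f f₁ f₂ t (Real.sqrt t * z) ^ 2 ∂(gaussianReal 0 1) :=
    poincare_scaled (P₂ := pD3 f f₁ f₂ f₃ t) ⟨W.deriv_pD t, W.deriv_pD2 t, K, fun y =>
      ⟨(hK t y).2.1, (hK t y).2.2.1, (hK t y).2.2.2.1⟩⟩ (W.pD_odd t) (Ioo_subset_Icc_self ht)
  set X := ∫ z, pD2 f f₁ f₂ t (Real.sqrt t * z) ^ 2 ∂(gaussianReal 0 1)
  have hX : 0 ≤ X := integral_nonneg fun _ => sq_nonneg _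
  have hb : X - 2 * a * rr f f₁ t ≤ ∫ z, pD2 f f₁ f₂ t (Real.sqrt t * z) ^ 2
      - 2 * pD f f₁ t (Real.sqrt t * z) ^ 2 * pD2 f f₁ f₂ t (Real.sqrt t * z) ∂(gaussianReal 0 1) := by
    simp only [rr, X, ← integral_const_mul]
    rw [← integral_sub i2 (i1.const_mul _)]
    refine integral_mono (i2.sub (i1.const_mul _)) (i2.sub ?_) fun z => ?_
    · exact bdd_int (((m1.pow_const 2).const_mul 2).mul m2) (C := 2 * K ^ 2 * K) fun z => by
        simp only [abs_mul, abs_two, abs_pow]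
        exact mul_le_mul (mul_le_mul_of_nonneg_left
          (pow_le_pow_left₀ (abs_nonneg _) (hK _ _).2.1 2) (by norm_num)) (hK _ _).2.2.1
          (abs_nonneg _) (by positivity)
    · simp only [Pi.sub_apply]
      nlinarith [mul_nonneg (sq_nonneg (pD f f₁ t (Real.sqrt t * z)))
        (sub_nonneg.2 (W.pD2_le t (Real.sqrt t * z)))]
  nlinarith [mul_nonneg hX (by linarith [ht.2] : 0 ≤ 1 - t)]

lemma deriv_gap (W : Pot f f₁ f₂ f₃ C a) {t : ℝ} (ht : t ∈ Ioo (0 : ℝ) 1) :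
    ∃ r', (1 - 2 * a) * rr f f₁ t ≤ r' ∧ HasDerivAt (gap f f₁) (-(r' * (1 - t) / 2)) t := by
  obtain ⟨K, hK⟩ := W.pD_bdd
  have hK0 : 0 ≤ K := (abs_nonneg _).trans (hK 0 0).1
  have key := outer_deriv (A := fun u y => Real.log (hs (eF f) u y))
    (P := fun u y => pD f f₁ u y) (P₁ := fun u y => pD2 f f₁ f₂ u y)
    (Q := fun u y => -(hs (eF2 f f₁ f₂) u y / hs (eF f) u y) / 2) (C := K) ht
    (fun u => (measurable_hs W.smE.cont.measurable u).log) (W.measurable_pD t)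
    ((((measurable_hs W.smE.meas2 t).div (measurable_hs W.smE.cont.measurable t)).neg).div_const 2)
    (fun u hu z => by
      have h0 := (W.phi_pos u (Real.sqrt u * z)).ne'
      refine ((W.smE.deriv_t hu z).log h0).congr_deriv ?_
      simp only [pD]
      field_simp)
    (W.deriv_pD t)
    (fun u y => ⟨(hK u y).1, (hK u y).2.1, (hK u y).2.2.1, by
      rw [abs_div, abs_neg, abs_two]; linarith [(hK u y).2.2.2.2, abs_nonneg
        (hs (eF2 f f₁ f₂) u y / hs (eF f) u y)]⟩)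
  have hfst : ∫ z, pD2 f f₁ f₂ t (Real.sqrt t * z) / 2
      + -(hs (eF2 f f₁ f₂) t (Real.sqrt t * z) / hs (eF f) t (Real.sqrt t * z)) / 2 ∂(gaussianReal 0 1)
      = -rr f f₁ t / 2 := by
    simp only [rr, ← integral_neg, ← integral_div]
    exact integral_congr_ae (ae_of_all _ fun z => by simp only [pD2]; ring)
  refine ⟨_, W.deriv_rr_ge ht, ((key.sub_const _).sub (((W.deriv_rr ht).mul
    ((hasDerivAt_id t).const_sub 1)).div_const 2)).congr_deriv ?_⟩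
  rw [hfst]
  simp only [id]
  ring

lemma gap_antitone (W : Pot f f₁ f₂ f₃ C a) : AntitoneOn (gap f f₁) (Icc 0 1) := by
  have h2 : 0 ≤ 1 - 2 * a := by linarith [W.small]
  choose r' hr' hd using fun (t : ℝ) (ht : t ∈ Ioo (0 : ℝ) 1) => W.deriv_gap ht
  refine antitoneOn_of_deriv_nonpos (convex_Icc _ _) W.continuous_gap.continuousOn ?_ ?_ <;>
    rw [interior_Icc]
  · exact fun t ht => (hd t ht).differentiableAt.differentiableWithinAt
  · intro t ht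
    rw [(hd t ht).deriv]
    nlinarith [mul_nonneg ((mul_nonneg h2 (rr_nonneg f f₁ t)).trans (hr' t ht))
      (by linarith [ht.2] : 0 ≤ 1 - t)]

lemma gap_nonneg (W : Pot f f₁ f₂ f₃ C a) {t : ℝ} (ht : t ∈ Icc (0 : ℝ) 1) : 0 ≤ gap f f₁ t :=
  W.gap_one ▸ W.gap_antitone ht (right_mem_Icc.2 zero_le_one) ht.2

/-- Away from `q = 1` the functional exceeds `α E f` linearly in `α`. -/
lemma gap_pos (W : Pot f f₁ f₂ f₃ C a) (hX : 0 < ∫ z, f₁ z ^ 2 ∂(gaussianReal 0 1)) {t : ℝ}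
    (ht : t ∈ Ico (0 : ℝ) 1) : 0 < gap f f₁ t := by
  have h2 : 0 < 1 - 2 * a := by linarith [W.small]
  have hev : ∀ᶠ u in 𝓝 (1 : ℝ), (∫ z, f₁ z ^ 2 ∂(gaussianReal 0 1)) / 2 < rr f f₁ u :=
    W.continuous_rr.continuousAt.eventually (lt_mem_nhds (by rw [W.rr_one]; linarith))
  obtain ⟨e, he, hball⟩ := Metric.eventually_nhds_iff.1 hev
  set s := max t (1 - e / 2) with hs_def
  have hs1 : s < 1 := max_lt ht.2 (by linarith)
  have hs0 : 0 ≤ s := ht.1.trans (le_max_left _ _)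
  have hst : gap f f₁ s ≤ gap f f₁ t :=
    W.gap_antitone ⟨ht.1, ht.2.le⟩ ⟨hs0, hs1.le⟩ (le_max_left _ _)
  choose r' hr' hd using fun (u : ℝ) (hu : u ∈ Ioo (0 : ℝ) 1) => W.deriv_gap hu
  have hsub : ∀ u ∈ Ioo s 1, u ∈ Ioo (0 : ℝ) 1 := fun u hu => ⟨hs0.trans_lt hu.1, hu.2⟩
  have hanti : StrictAntiOn (gap f f₁) (Icc s 1) := by
    refine strictAntiOn_of_deriv_neg (convex_Icc _ _) W.continuous_gap.continuousOn ?_
    rw [interior_Icc]
    intro u hu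
    rw [(hd u (hsub u hu)).deriv]
    have hr : 0 < rr f f₁ u := by
      refine lt_trans (by linarith) (hball ?_)
      rw [Real.dist_eq, abs_of_nonpos (by linarith [hu.2])]
      linarith [hu.1, le_max_right t (1 - e / 2)]
    nlinarith [mul_pos ((mul_pos h2 hr).trans_le (hr' u (hsub u hu)))
      (by linarith [hu.2] : 0 < 1 - u)]
  have := hanti (left_mem_Icc.2 hs1.le) (right_mem_Icc.2 hs1.le) hs1
  rw [W.gap_one] at this
  linarith

end Pot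

lemma logCosh_ge (s : ℝ) :
    Real.sqrt s * Real.sqrt (2 / Real.pi) - Real.log 2 ≤ logCoshAvg s := by
  have hi : Integrable (fun z : ℝ => |z|) (gaussianReal 0 1) := by simpa using integrable_abs_pow_gauss 1
  have := integral_mono ((hi.const_mul (Real.sqrt s)).sub (integrable_const (Real.log 2)))
    (integrable_log_cosh (Real.sqrt s)) fun z => by
      simp only [Pi.sub_apply]
      have hc : Real.exp |Real.sqrt s * z| ≤ 2 * Real.cosh (Real.sqrt s * z) := by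
        rw [← Real.cosh_abs, Real.cosh_eq]
        linarith [Real.exp_pos (-|Real.sqrt s * z|)]
      have := Real.log_le_log (Real.exp_pos _) hc
      rw [Real.log_exp, Real.log_mul two_ne_zero (Real.cosh_pos _).ne', abs_mul,
        abs_of_nonneg (Real.sqrt_nonneg s)] at this
      linarith
  rw [integral_sub' (hi.const_mul _) (integrable_const _), integral_const_mul, gauss_abs] at this
  simpa [logCoshAvg] using this

lemma logCosh_nonneg (s : ℝ) : 0 ≤ logCoshAvg s :=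
  integral_nonneg fun _ => Real.log_nonneg (Real.one_le_cosh _)

/-- The replica-symmetric functional at high density. -/
lemma rs_lower (W : Pot f f₁ f₂ f₃ C a) (hX : 0 < ∫ z, f₁ z ^ 2 ∂(gaussianReal 0 1)) {η : ℝ} (hη : 0 < η) :
    ∀ᶠ α in atTop, ∀ q ∈ Ico (0 : ℝ) 1, α * (∫ z, f z ∂(gaussianReal 0 1))
      + Real.sqrt α * (Real.sqrt (∫ z, f₁ z ^ 2 ∂(gaussianReal 0 1)) * Real.sqrt (2 / Real.pi) - η) - Real.log 2
      ≤ rsValue α f f₁ q := by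
  set X := ∫ z, f₁ z ^ 2 ∂(gaussianReal 0 1) with hXd
  set c := Real.sqrt (2 / Real.pi)
  have hev : ∀ᶠ u in 𝓝 (1 : ℝ), Real.sqrt X * c - η < Real.sqrt (rr f f₁ u) * c :=
    ((W.continuous_rr.sqrt.mul continuous_const).continuousAt.eventually
      (lt_mem_nhds (by simp only [Pi.mul_apply]; rw [W.rr_one]; linarith)))
  obtain ⟨e, he, hball⟩ := Metric.eventually_nhds_iff.1 hev
  set t₁ := max 0 (1 - e / 2)
  have ht₁ : t₁ ∈ Ico (0 : ℝ) 1 := ⟨le_max_left _ _, max_lt zero_lt_one (by linarith)⟩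
  have hd := W.gap_pos hX ht₁
  set L := Real.sqrt X * c - η
  have hgrow : ∀ᶠ α : ℝ in atTop, L ≤ Real.sqrt α * gap f f₁ t₁ :=
    (Real.tendsto_sqrt_atTop.atTop_mul_const hd).eventually_ge_atTop L
  filter_upwards [hgrow, eventually_ge_atTop (0 : ℝ)] with α hα hα0 q hq
  rw [rsValue_eq]
  have hl2 : 0 ≤ Real.log 2 := Real.log_nonneg (by norm_num)
  rcases le_or_gt q t₁ with h | h
  · have h1 : gap f f₁ t₁ ≤ gap f f₁ q :=
      W.gap_antitone ⟨hq.1, hq.2.le⟩ ⟨ht₁.1, ht₁.2.le⟩ h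
    have h2 : Real.sqrt α * L ≤ α * gap f f₁ q := by
      refine le_trans ?_ (mul_le_mul_of_nonneg_left h1 hα0)
      nth_rewrite 2 [← Real.mul_self_sqrt hα0]
      rw [mul_assoc]
      exact mul_le_mul_of_nonneg_left hα (Real.sqrt_nonneg _)
    linarith [logCosh_nonneg (α * rr f f₁ q)]
  · have h1 : L < Real.sqrt (rr f f₁ q) * c := hball (by
      rw [Real.dist_eq, abs_of_nonpos (by linarith [hq.2])]
      linarith [le_max_right (0 : ℝ) (1 - e / 2), hq.2])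
    have h2 := mul_le_mul_of_nonneg_left h1.le (Real.sqrt_nonneg α)
    rw [← mul_assoc, ← Real.sqrt_mul hα0] at h2
    linarith [logCosh_ge (α * rr f f₁ q),
      mul_nonneg hα0 (W.gap_nonneg ⟨hq.1, hq.2.le⟩)]

end Vale.Agent.P157.Rsb
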