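import Vale.Agent.P157.Rsb.Stein
import Mathlib.Analysis.Complex.ExponentialBounds

/-!
Second order expansion of the Gaussian average of a small power of a partition function.
-/

open MeasureTheory ProbabilityTheory
open scoped BigOperators

namespace Vale.Agent.P157.Rsb

lemma exp_sub_one_abs (x : ℝ) : |Real.exp x - 1| ≤ |x| * Real.exp |x| := by
  rcases le_total 0 x with h | h
  · rw [abs_of_nonneg h, abs_of_nonneg (by linarith [Real.add_one_le_exp x])]
    nlinarith [Real.add_one_le_exp (-x), Real.exp_pos x,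
      mul_le_mul_of_nonneg_left (Real.add_one_le_exp (-x)) (Real.exp_pos x).le,
      show Real.exp x * Real.exp (-x) = 1 by rw [← Real.exp_add]; simp]
  · rw [abs_of_nonpos h, abs_of_nonpos (by linarith [Real.exp_le_one_iff.2 h])]
    nlinarith [Real.add_one_le_exp x, Real.one_le_exp (neg_nonneg.2 h)]

lemma exp_two_term (x : ℝ) : |Real.exp x - 1 - x - x ^ 2 / 2| ≤ |x| ^ 3 * Real.exp |x| := by
  have h := Complex.norm_exp_sub_sum_le_norm_mul_exp (x : ℂ) 3
  simp only [Finset.sum_range_succ, Finset.sum_range_zero, Nat.factorial, zero_add, pow_zero,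
    pow_one, Nat.cast_one, div_one, Complex.norm_real, Real.norm_eq_abs] at h
  norm_num at h
  rw [← Complex.ofReal_exp] at h
  rw [show (Real.exp x : ℂ) - (1 + x + (x : ℂ) ^ 2 / 2)
      = ((Real.exp x - 1 - x - x ^ 2 / 2 : ℝ) : ℂ) by push_cast; ring,
    Complex.norm_real, Real.norm_eq_abs] at h
  exact h

/-- Second order expansion of a power `m ∈ (0,1)` on `[-1, ∞)`. -/
lemma rpow_two_term {m y : ℝ} (hm0 : 0 < m) (hm1 : m < 1) (hy : -1 ≤ y) :
    |(1 + y) ^ m - 1 - m * y + m * (1 - m) / 2 * y ^ 2| ≤ 40 * |y| ^ 3 := by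
  have hmm : 0 ≤ m * (1 - m) ∧ m * (1 - m) ≤ 1 :=
    ⟨mul_nonneg hm0.le (by linarith), by nlinarith⟩
  by_cases hy2 : |y| ≤ 1 / 2
  · have hy' := abs_le.1 hy2
    set L := Real.log (1 + y)
    set e := L - (y - y ^ 2 / 2)
    have h3 : 0 ≤ |y| ^ 3 := pow_nonneg (abs_nonneg y) 3
    have h2 : y ^ 2 ≤ |y| / 2 := by
      rw [← sq_abs]; nlinarith [abs_nonneg y]
    have he : |e| ≤ 2 * |y| ^ 3 := by
      have hb := Real.abs_log_sub_add_sum_range_le (x := -y) (by rw [abs_neg]; linarith) 2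
      simp only [Finset.sum_range_succ, Finset.sum_range_zero, abs_neg, sub_neg_eq_add] at hb
      norm_num at hb
      have : |e| ≤ |y| ^ 3 / (1 - |y|) := by
        refine le_trans (le_of_eq ?_) hb
        simp only [e, L]; congr 1; ring
      refine this.trans ?_
      rw [div_le_iff₀ (by linarith)]
      nlinarith
    have hL : |L| ≤ 2 * |y| := by
      have : L = e + (y - y ^ 2 / 2) := by simp [e]
      rw [this]
      refine (abs_add_le _ _).trans ?_
      have h1 := abs_sub y (y ^ 2 / 2)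
      rw [abs_of_nonneg (by positivity : (0 : ℝ) ≤ y ^ 2 / 2)] at h1
      have h4 : |y| ^ 3 ≤ |y| / 4 := by
        nlinarith [abs_nonneg y, mul_le_mul hy2 hy2 (abs_nonneg y) (by norm_num)]
      linarith
    have hpow : (1 + y) ^ m = Real.exp (m * L) := by
      rw [Real.rpow_def_of_pos (by linarith), mul_comm]
    have hmL : |m * L| ≤ 2 * |y| := by
      rw [abs_mul, abs_of_pos hm0]
      exact (mul_le_of_le_one_left (abs_nonneg _) hm1.le).trans hL
    have hx := exp_two_term (m * L)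
    have hexp : Real.exp |m * L| ≤ 3 :=
      (Real.exp_le_exp.2 (hmL.trans (by linarith : _ ≤ (1 : ℝ)))).trans (by linarith [Real.exp_one_lt_three])
    have hm3 : |m * L| ^ 3 * Real.exp |m * L| ≤ 24 * |y| ^ 3 := by
      calc _ ≤ (2 * |y|) ^ 3 * 3 := mul_le_mul (pow_le_pow_left₀ (abs_nonneg _) hmL 3) hexp
            (Real.exp_pos _).le (by positivity)
        _ = _ := by ring
    have hq : |L ^ 2 - y ^ 2| ≤ 8 * |y| ^ 3 := by
      rw [sq_sub_sq, abs_mul]
      have h5 : |L - y| ≤ 2 * |y| ^ 2 := by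
        have : L - y = e - y ^ 2 / 2 := by simp [e]; ring
        rw [this]
        refine (abs_sub _ _).trans ?_
        rw [abs_of_nonneg (by positivity : (0 : ℝ) ≤ y ^ 2 / 2), sq_abs]
        have : 2 * |y| ^ 3 ≤ y ^ 2 := by
          rw [← sq_abs y]; nlinarith [sq_nonneg |y|]
        nlinarith [sq_nonneg y]
      have h6 : |L + y| ≤ 3 * |y| := (abs_add_le _ _).trans (by linarith)
      calc _ ≤ (3 * |y|) * (2 * |y| ^ 2) := mul_le_mul h6 h5 (abs_nonneg _) (by positivity)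
        _ ≤ _ := by nlinarith
    have hsplit : (1 + y) ^ m - 1 - m * y + m * (1 - m) / 2 * y ^ 2
        = (Real.exp (m * L) - 1 - m * L - (m * L) ^ 2 / 2) + m * e
          + m ^ 2 / 2 * (L ^ 2 - y ^ 2) := by
      rw [hpow]; simp only [e]; ring
    rw [hsplit]
    refine (abs_add_three _ _ _).trans ?_
    rw [abs_mul m, abs_mul (m ^ 2 / 2), abs_of_pos hm0,
      abs_of_nonneg (by positivity : (0 : ℝ) ≤ m ^ 2 / 2)]
    have hm2 : m ^ 2 ≤ 1 := by nlinarith
    nlinarith [mul_le_mul hm1.le he (abs_nonneg e) zero_le_one,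
      mul_le_mul (by linarith : m ^ 2 / 2 ≤ 1 / 2) hq (abs_nonneg _) (by norm_num : (0:ℝ) ≤ 1/2)]
  · push Not at hy2
    have h0 : 0 ≤ (1 + y) ^ m := Real.rpow_nonneg (by linarith) m
    have h1 : (1 + y) ^ m ≤ 1 + |y| := by
      rcases le_total 0 y with h | h
      · rw [abs_of_nonneg h]
        calc (1 + y) ^ m ≤ (1 + y) ^ (1 : ℝ) :=
              Real.rpow_le_rpow_of_exponent_le (by linarith) hm1.le
          _ = _ := Real.rpow_one _
      · exact (Real.rpow_le_one (by linarith) (by linarith) hm0.le).trans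
          (by linarith [abs_nonneg y])
    have h2 : 1 / 4 ≤ |y| ^ 2 := by nlinarith
    have h3 : 1 / 8 ≤ |y| ^ 3 := by nlinarith [mul_le_mul hy2.le h2 (by norm_num) (abs_nonneg y)]
    have hmy : |m * y| ≤ |y| := by
      rw [abs_mul, abs_of_pos hm0]; exact mul_le_of_le_one_left (abs_nonneg _) hm1.le
    have hsq : m * (1 - m) / 2 * y ^ 2 ≤ y ^ 2 / 2 := by nlinarith [sq_nonneg y]
    have hsq0 : 0 ≤ m * (1 - m) / 2 * y ^ 2 :=
      mul_nonneg (by linarith [hmm.1]) (sq_nonneg y)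
    rw [← sq_abs y] at hsq hsq0 ⊢
    rw [abs_le]
    constructor <;>
      nlinarith [abs_le.1 hmy, mul_le_mul_of_nonneg_right hy2.le (sq_nonneg |y|),
        mul_le_mul_of_nonneg_right h2 (abs_nonneg y)]

/-- The moment dominating all error terms. -/
noncomputable def wK (x : ℝ) : ℝ := (1 + x ^ 6) * Real.exp (4 * |x|)

lemma wK_nonneg (x : ℝ) : 0 ≤ wK x := by unfold wK; positivity

lemma pow_mul_exp_le_wK (x : ℝ) {j : ℕ} (hj : j ≤ 6) {c : ℝ} (hc : c ≤ 4) :
    |x| ^ j * Real.exp (c * |x|) ≤ wK x := by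
  unfold wK
  refine mul_le_mul ?_ (Real.exp_le_exp.2 (mul_le_mul_of_nonneg_right hc (abs_nonneg x)))
    (Real.exp_pos _).le (by positivity)
  rcases le_total |x| 1 with h | h
  · linarith [pow_le_one₀ (n := j) (abs_nonneg x) h, Even.pow_nonneg (by decide : Even 6) x]
  · have := pow_le_pow_right₀ h hj
    rw [Even.pow_abs (by decide : Even 6)] at this
    linarith

variable {S : Type*} [Fintype S]

lemma mean_pow_le {p V : S → ℝ} (hp : ∀ σ, 0 ≤ p σ) (hp1 : ∑ σ, p σ = 1) (hV : ∀ σ, 0 ≤ V σ)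
    (n : ℕ) : (∑ σ, p σ * V σ) ^ n ≤ ∑ σ, p σ * V σ ^ n :=
  Real.pow_arith_mean_le_arith_mean_pow _ p V (fun σ _ => hp σ) hp1 (fun σ _ => hV σ) n

/-- The pointwise expansion. -/
lemma step_pointwise {p V : S → ℝ} (hp : ∀ σ, 0 ≤ p σ) (hp1 : ∑ σ, p σ = 1) {m s : ℝ}
    (hm0 : 0 < m) (hm1 : m < 1) (hs0 : 0 < s) (hs1 : s ≤ 1) :
    |(∑ σ, p σ * Real.exp (s * V σ)) ^ m
        - (1 + m * (s * ∑ σ, p σ * V σ + s ^ 2 / 2 * ∑ σ, p σ * V σ ^ 2)
          - m * (1 - m) / 2 * (s ^ 2 * (∑ σ, p σ * V σ) ^ 2))|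
      ≤ 50 * s ^ 3 * ∑ σ, p σ * wK (V σ) := by
  set Y := ∑ σ, p σ * Real.exp (s * V σ)
  set a := ∑ σ, p σ * V σ
  set b := ∑ σ, p σ * V σ ^ 2
  set K := ∑ σ, p σ * wK (V σ)
  set y := Y - 1
  have hK : ∀ (j : ℕ) (c : ℝ), j ≤ 6 → c ≤ 4 →
      ∑ σ, p σ * (|V σ| ^ j * Real.exp (c * |V σ|)) ≤ K := fun j c hj hc =>
    Finset.sum_le_sum fun σ _ => mul_le_mul_of_nonneg_left (pow_mul_exp_le_wK _ hj hc) (hp σ)
  have hK0 : 0 ≤ K := Finset.sum_nonneg fun σ _ => mul_nonneg (hp σ) (wK_nonneg _)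
  have hY0 : 0 ≤ Y := Finset.sum_nonneg fun σ _ => mul_nonneg (hp σ) (Real.exp_pos _).le
  have hyd : y = ∑ σ, p σ * (Real.exp (s * V σ) - 1) := by
    simp [y, Y, mul_sub, Finset.sum_sub_distrib, hp1]
  have hsV : ∀ σ, |s * V σ| = s * |V σ| := fun σ => by rw [abs_mul, abs_of_pos hs0]
  have hsV' : ∀ σ, Real.exp (s * |V σ|) ≤ Real.exp |V σ| := fun σ =>
    Real.exp_le_exp.2 (mul_le_of_le_one_left (abs_nonneg _) hs1)
  have hy1 : |y| ≤ s * ∑ σ, p σ * (|V σ| * Real.exp |V σ|) := by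
    rw [hyd, Finset.mul_sum]
    refine (Finset.abs_sum_le_sum_abs _ _).trans (Finset.sum_le_sum fun σ _ => ?_)
    rw [abs_mul, abs_of_nonneg (hp σ)]
    refine (mul_le_mul_of_nonneg_left (exp_sub_one_abs _) (hp σ)).trans (le_of_le_of_eq
      (mul_le_mul_of_nonneg_left ?_ (hp σ)) (by ring : p σ * (s * (|V σ| * Real.exp |V σ|)) = _))
    rw [hsV, mul_assoc]
    exact mul_le_mul_of_nonneg_left
      (mul_le_mul_of_nonneg_left (hsV' σ) (abs_nonneg _)) hs0.le
  -- cubic term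
  have hy3 : |y| ^ 3 ≤ s ^ 3 * K := by
    refine (pow_le_pow_left₀ (abs_nonneg _) hy1 3).trans ?_
    rw [mul_pow]
    refine mul_le_mul_of_nonneg_left ((mean_pow_le hp hp1 (fun σ => by positivity) 3).trans ?_)
      (by positivity)
    refine le_of_eq_of_le (Finset.sum_congr rfl fun σ _ => ?_) (hK 3 3 (by norm_num) (by norm_num))
    rw [mul_pow, ← Real.exp_nat_mul]
    norm_num
  -- linear term
  have hlin : |y - s * a - s ^ 2 / 2 * b| ≤ s ^ 3 * K := by
    have he : y - s * a - s ^ 2 / 2 * b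
        = ∑ σ, p σ * (Real.exp (s * V σ) - 1 - s * V σ - (s * V σ) ^ 2 / 2) := by
      simp only [hyd, a, b, Finset.mul_sum, ← Finset.sum_sub_distrib]
      exact Finset.sum_congr rfl fun σ _ => by ring
    rw [he]
    refine (Finset.abs_sum_le_sum_abs _ _).trans ?_
    refine le_trans ?_ (mul_le_mul_of_nonneg_left (hK 3 1 (by norm_num) (by norm_num))
      (by positivity))
    rw [Finset.mul_sum]
    refine Finset.sum_le_sum fun σ _ => ?_
    rw [abs_mul, abs_of_nonneg (hp σ)]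
    refine (mul_le_mul_of_nonneg_left (exp_two_term _) (hp σ)).trans ?_
    rw [hsV, mul_pow]
    calc p σ * (s ^ 3 * |V σ| ^ 3 * Real.exp (s * |V σ|))
        ≤ p σ * (s ^ 3 * |V σ| ^ 3 * Real.exp |V σ|) :=
          mul_le_mul_of_nonneg_left (mul_le_mul_of_nonneg_left (hsV' σ) (by positivity)) (hp σ)
      _ = _ := by rw [one_mul]; ring
  -- quadratic term
  have hquad : |y ^ 2 - s ^ 2 * a ^ 2| ≤ 4 * s ^ 3 * K := by
    set ρ := y - s * a
    have hρ : |ρ| ≤ 2 * s ^ 2 * ∑ σ, p σ * (|V σ| ^ 2 * Real.exp |V σ|) := by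
      have he : ρ = ∑ σ, p σ * (Real.exp (s * V σ) - 1 - s * V σ) := by
        simp only [ρ, hyd, a, Finset.mul_sum, ← Finset.sum_sub_distrib]
        exact Finset.sum_congr rfl fun σ _ => by ring
      rw [he, Finset.mul_sum]
      refine (Finset.abs_sum_le_sum_abs _ _).trans (Finset.sum_le_sum fun σ _ => ?_)
      rw [abs_mul, abs_of_nonneg (hp σ)]
      refine (mul_le_mul_of_nonneg_left (?_ : _ ≤ 2 * s ^ 2 * (|V σ| ^ 2 * Real.exp |V σ|))
        (hp σ)).trans (le_of_eq (by ring))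
      have h := exp_two_term (s * V σ / 1)
      have h2 : |Real.exp (s * V σ) - 1 - s * V σ| ≤ |s * V σ| ^ 2 * Real.exp |s * V σ| := by
        have := Complex.norm_exp_sub_sum_le_norm_mul_exp ((s * V σ : ℝ) : ℂ) 2
        simp only [Finset.sum_range_succ, Finset.sum_range_zero, Nat.factorial, zero_add, pow_zero,
          pow_one, Complex.norm_real, Real.norm_eq_abs] at this
        norm_num at this
        rw [← Complex.ofReal_mul, ← Complex.ofReal_exp, Complex.ofReal_mul] at this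
        rw [show (Real.exp (s * V σ) : ℂ) - (1 + s * V σ)
            = ((Real.exp (s * V σ) - 1 - s * V σ : ℝ) : ℂ) by push_cast; ring,
          Complex.norm_real, Real.norm_eq_abs, ← abs_mul] at this
        simpa [sq_abs] using this
      refine h2.trans ?_
      rw [hsV, mul_pow]
      calc s ^ 2 * |V σ| ^ 2 * Real.exp (s * |V σ|)
          ≤ s ^ 2 * |V σ| ^ 2 * Real.exp |V σ| :=
            mul_le_mul_of_nonneg_left (hsV' σ) (by positivity)
        _ ≤ _ := by nlinarith [show 0 ≤ s ^ 2 * |V σ| ^ 2 * Real.exp |V σ| by positivity]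
    have ha : |a| ≤ ∑ σ, p σ * |V σ| := by
      refine (Finset.abs_sum_le_sum_abs _ _).trans (le_of_eq ?_)
      exact Finset.sum_congr rfl fun σ _ => by rw [abs_mul, abs_of_nonneg (hp σ)]
    have hys : |y + s * a| ≤ 2 * s * ∑ σ, p σ * (|V σ| * Real.exp |V σ|) := by
      refine (abs_add_le _ _).trans ?_
      rw [two_mul, add_mul, abs_mul, abs_of_pos hs0]
      refine add_le_add hy1 (mul_le_mul_of_nonneg_left (ha.trans ?_) hs0.le)
      exact Finset.sum_le_sum fun σ _ => mul_le_mul_of_nonneg_left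
        (le_mul_of_one_le_right (abs_nonneg _) (Real.one_le_exp (abs_nonneg _))) (hp σ)
    set A := ∑ σ, p σ * (|V σ| * Real.exp |V σ|)
    set B := ∑ σ, p σ * (|V σ| ^ 2 * Real.exp |V σ|)
    have hA : A ^ 2 ≤ K := (mean_pow_le hp hp1 (fun σ => by positivity) 2).trans
      (le_of_eq_of_le (Finset.sum_congr rfl fun σ _ => by rw [mul_pow, ← Real.exp_nat_mul]; norm_num)
        (hK 2 2 (by norm_num) (by norm_num)))
    have hB : B ^ 2 ≤ K := (mean_pow_le hp hp1 (fun σ => by positivity) 2).trans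
      (le_of_eq_of_le (Finset.sum_congr rfl fun σ _ => by
        rw [mul_pow, ← Real.exp_nat_mul, ← pow_mul]; norm_num)
        (hK 4 2 (by norm_num) (by norm_num)))
    rw [show y ^ 2 - s ^ 2 * a ^ 2 = (y + s * a) * ρ by ring, abs_mul]
    have hA0 : 0 ≤ A := Finset.sum_nonneg fun σ _ => mul_nonneg (hp σ) (by positivity)
    refine (mul_le_mul hys hρ (abs_nonneg _) (by positivity)).trans ?_
    have hs2 : s ^ 3 * (A * B) * 4 ≤ 4 * s ^ 3 * K := by
      have : A * B ≤ K := by nlinarith [sq_nonneg (A - B)]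
      nlinarith [mul_le_mul_of_nonneg_left this (by positivity : (0 : ℝ) ≤ 4 * s ^ 3)]
    nlinarith
  have hmain := rpow_two_term hm0 hm1 (y := y) (by simp only [y]; linarith)
  rw [show 1 + y = Y by simp [y]] at hmain
  have hm' : 0 ≤ m * (1 - m) / 2 ∧ m * (1 - m) / 2 ≤ 1 := ⟨by nlinarith, by nlinarith⟩
  have hl' : |m * (y - s * a - s ^ 2 / 2 * b)| ≤ s ^ 3 * K := by
    rw [abs_mul, abs_of_pos hm0]
    exact (mul_le_of_le_one_left (abs_nonneg _) hm1.le).trans hlin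
  have hq' : |m * (1 - m) / 2 * (y ^ 2 - s ^ 2 * a ^ 2)| ≤ 4 * s ^ 3 * K := by
    rw [abs_mul, abs_of_nonneg hm'.1]
    exact (mul_le_of_le_one_left (abs_nonneg _) hm'.2).trans hquad
  rw [show Y ^ m - (1 + m * (s * a + s ^ 2 / 2 * b) - m * (1 - m) / 2 * (s ^ 2 * a ^ 2))
    = (Y ^ m - 1 - m * y + m * (1 - m) / 2 * y ^ 2) + m * (y - s * a - s ^ 2 / 2 * b)
      + -(m * (1 - m) / 2 * (y ^ 2 - s ^ 2 * a ^ 2)) by ring]
  refine (abs_add_three _ _ _).trans ?_
  rw [abs_neg]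
  nlinarith [hmain, hy3, mul_nonneg (pow_nonneg hs0.le 3) hK0]

/-- The averaged expansion. -/
lemma step_avg {Ω : Type*} [MeasurableSpace Ω] (P : Measure Ω) [IsProbabilityMeasure P]
    {p : S → ℝ} (hp : ∀ σ, 0 ≤ p σ) (hp1 : ∑ σ, p σ = 1) {V : Ω → S → ℝ} {τ κ : ℝ} {c : S → S → ℝ}
    (hVm : ∀ σ, Measurable fun g => V g σ) (hV1 : ∀ σ, Integrable (fun g => V g σ) P)
    (hV0 : ∀ σ, ∫ g, V g σ ∂P = 0)
    (hVV : ∀ σ σ', Integrable (fun g => V g σ * V g σ') P)
    (hc : ∀ σ σ', ∫ g, V g σ * V g σ' ∂P = c σ σ') (hτ : ∀ σ, c σ σ = τ)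
    (hKi : ∀ σ, Integrable (fun g => wK (V g σ)) P) (hκ : ∀ σ, ∫ g, wK (V g σ) ∂P ≤ κ)
    {m s : ℝ} (hm0 : 0 < m) (hm1 : m < 1) (hs0 : 0 < s) (hs1 : s ≤ 1) :
    Integrable (fun g => (∑ σ, p σ * Real.exp (s * V g σ)) ^ m) P ∧
    |(∫ g, (∑ σ, p σ * Real.exp (s * V g σ)) ^ m ∂P)
        - (1 + m * s ^ 2 / 2 * (τ - (1 - m) * ∑ σ, ∑ σ', p σ * p σ' * c σ σ'))|
      ≤ 50 * s ^ 3 * κ := by
  set Q : Ω → ℝ := fun g => 1 + m * (s * ∑ σ, p σ * V g σ + s ^ 2 / 2 * ∑ σ, p σ * V g σ ^ 2)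
    - m * (1 - m) / 2 * (s ^ 2 * (∑ σ, p σ * V g σ) ^ 2) with hQd
  set D : Ω → ℝ := fun g => 50 * s ^ 3 * ∑ σ, p σ * wK (V g σ)
  have i1 : Integrable (fun g => ∑ σ, p σ * V g σ) P :=
    integrable_finsetSum _ fun σ _ => (hV1 σ).const_mul _
  have i2 : Integrable (fun g => ∑ σ, p σ * V g σ ^ 2) P :=
    integrable_finsetSum _ fun σ _ => ((hVV σ σ).congr (ae_of_all _ fun g => by ring)).const_mul _
  have e3 : ∀ g, (∑ σ, p σ * V g σ) ^ 2 = ∑ σ, ∑ σ', p σ * p σ' * (V g σ * V g σ') := fun g => by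
    rw [sq, Finset.sum_mul_sum]
    exact Finset.sum_congr rfl fun σ _ => Finset.sum_congr rfl fun σ' _ => by ring
  have i3 : Integrable (fun g => (∑ σ, p σ * V g σ) ^ 2) P := by
    simp_rw [e3]
    exact integrable_finsetSum _ fun σ _ => integrable_finsetSum _ fun σ' _ =>
      (hVV σ σ').const_mul _
  have j1 : Integrable (fun g => s * ∑ σ, p σ * V g σ + s ^ 2 / 2 * ∑ σ, p σ * V g σ ^ 2) P :=
    (i1.const_mul s).add (i2.const_mul _)
  have j2 : Integrable (fun g => 1 +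
      m * (s * ∑ σ, p σ * V g σ + s ^ 2 / 2 * ∑ σ, p σ * V g σ ^ 2)) P :=
    (integrable_const 1).add (j1.const_mul m)
  have iQ : Integrable Q P := j2.sub ((i3.const_mul _).const_mul _)
  have iD : Integrable D P :=
    (integrable_finsetSum _ fun σ _ => (hKi σ).const_mul _).const_mul _
  have hb : ∀ g, |(∑ σ, p σ * Real.exp (s * V g σ)) ^ m - Q g| ≤ D g := fun g =>
    step_pointwise hp hp1 hm0 hm1 hs0 hs1
  have iY : Integrable (fun g => (∑ σ, p σ * Real.exp (s * V g σ)) ^ m) P := by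
    refine (iQ.abs.add iD).mono' (Measurable.aestronglyMeasurable (by fun_prop))
      (ae_of_all _ fun g => ?_)
    rw [Real.norm_eq_abs, Pi.add_apply]
    linarith [hb g, abs_sub_abs_le_abs_sub ((∑ σ, p σ * Real.exp (s * V g σ)) ^ m) (Q g)]
  refine ⟨iY, ?_⟩
  have hQ : ∫ g, Q g ∂P = 1 + m * s ^ 2 / 2 * (τ - (1 - m) * ∑ σ, ∑ σ', p σ * p σ' * c σ σ') := by
    have q1 : ∫ g, ∑ σ, p σ * V g σ ∂P = 0 := by
      rw [integral_finsetSum _ fun σ _ => (hV1 σ).const_mul _]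
      simp [integral_const_mul, hV0]
    have q2 : ∫ g, ∑ σ, p σ * V g σ ^ 2 ∂P = τ := by
      simp only [sq]
      rw [integral_finsetSum _ fun σ _ => (hVV σ σ).const_mul _]
      simp [integral_const_mul, hc, hτ, ← Finset.sum_mul, hp1]
    have q3 : ∫ g, (∑ σ, p σ * V g σ) ^ 2 ∂P = ∑ σ, ∑ σ', p σ * p σ' * c σ σ' := by
      simp_rw [e3]
      rw [integral_finsetSum _ fun σ _ => integrable_finsetSum _ fun σ' _ =>
        (hVV σ σ').const_mul _]
      refine Finset.sum_congr rfl fun σ _ => ?_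
      rw [integral_finsetSum _ fun σ' _ => (hVV σ σ').const_mul _]
      simp [integral_const_mul, hc]
    simp only [hQd]
    rw [integral_sub j2 ((i3.const_mul _).const_mul _), integral_add (integrable_const 1)
      (j1.const_mul m), integral_const_mul, integral_const_mul, integral_const_mul,
      integral_add (i1.const_mul s) (i2.const_mul _), integral_const_mul, integral_const_mul,
      q1, q2, q3]
    simp
    ring
  rw [← hQ, ← integral_sub iY iQ]
  refine (abs_integral_le_integral_abs).trans ((integral_mono (iY.sub iQ).abs iD hb).trans ?_)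
  rw [integral_const_mul, integral_finsetSum _ fun σ _ => (hKi σ).const_mul _]
  refine mul_le_mul_of_nonneg_left ?_ (by positivity)
  calc ∑ σ, ∫ g, p σ * wK (V g σ) ∂P ≤ ∑ σ, p σ * κ := Finset.sum_le_sum fun σ _ => by
        rw [integral_const_mul]; exact mul_le_mul_of_nonneg_left (hκ σ) (hp σ)
    _ = κ := by rw [← Finset.sum_mul, hp1, one_mul]

end Vale.Agent.P157.Rsb
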