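import Vale.Agent.P157.Rsb.Cube
import Vale.Agent.P157.Rsb.Step
import Vale.Agent.P157.Rsb.RS
import Mathlib.Analysis.Real.Pi.Bounds

/-!
The one-step bound on the cube at high density.
-/

open MeasureTheory ProbabilityTheory Filter Topology Set
open scoped BigOperators

namespace Vale.Agent.P157.Rsb

/-- The overlap vector of a configuration. -/
noncomputable def xv {N : ℕ} (σ : Fin N → Bool) (i : Fin N) : ℝ := sg σ i / Real.sqrt N

/-- The field of a pattern at a configuration. -/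
noncomputable def lin {N : ℕ} (g : Fin N → ℝ) (σ : Fin N → Bool) : ℝ := ∑ i, g i * xv σ i

lemma xv_unit {N : ℕ} (hN : 0 < N) (σ : Fin N → Bool) : ∑ i, xv σ i ^ 2 = 1 := by
  have : (N : ℝ) ≠ 0 := by exact_mod_cast hN.ne'
  simp [xv, div_pow, sg_sq, Real.sq_sqrt (Nat.cast_nonneg N), this]

lemma measurable_lin {N : ℕ} (σ : Fin N → Bool) : Measurable fun g : Fin N → ℝ => lin g σ := by
  unfold lin; fun_prop

lemma integrable_linear_sq {ι : Type*} [Fintype ι] (w : ι → ℝ) :
    Integrable (fun g : ι → ℝ => (∑ j, g j * w j) ^ 2) (gaussVec ι) := by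
  refine integrable_linear w (F := fun y => y ^ 2) (by fun_prop) ?_
  simp only [mul_pow]
  exact (integrable_pow_gauss 2).const_mul _

lemma linear_mul_eq {ι : Type*} [Fintype ι] (x y g : ι → ℝ) :
    (∑ j, g j * x j) * (∑ j, g j * y j) = ((∑ j, g j * (x j + y j)) ^ 2
      - (∑ j, g j * (x j - y j)) ^ 2) / 4 := by
  simp only [mul_add, mul_sub, Finset.sum_add_distrib, Finset.sum_sub_distrib]
  ring

lemma integrable_linear_mul {ι : Type*} [Fintype ι] (x y : ι → ℝ) :
    Integrable (fun g : ι → ℝ => (∑ j, g j * x j) * (∑ j, g j * y j)) (gaussVec ι) := by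
  simp_rw [linear_mul_eq x y]
  exact ((integrable_linear_sq _).sub (integrable_linear_sq _)).div_const _

lemma integral_linear_mul {ι : Type*} [Fintype ι] (x y : ι → ℝ) :
    ∫ g, (∑ j, g j * x j) * (∑ j, g j * y j) ∂gaussVec ι = ∑ j, x j * y j := by
  simp_rw [linear_mul_eq x y]
  rw [integral_div, integral_sub (integrable_linear_sq _) (integrable_linear_sq _),
    integral_linear_sq, integral_linear_sq, ← Finset.sum_sub_distrib, Finset.sum_div]
  exact Finset.sum_congr rfl fun j _ => by ring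

lemma integrable_wK_gauss (c : ℝ) : Integrable (fun z => wK (c * z)) (gaussianReal 0 1) := by
  refine ((integrable_pow_exp 0 (4 * |c|)).add
    ((integrable_pow_exp 6 (4 * |c|)).const_mul (c ^ 6))).congr (ae_of_all _ fun z => ?_)
  simp only [wK, Pi.add_apply, abs_mul, Even.pow_abs (by decide : Even 6)]
  ring_nf

lemma wK_le {t B : ℝ} (ht : |t| ≤ B) : wK t ≤ (1 + B ^ 6) * Real.exp (4 * B) := by
  unfold wK
  rw [← Even.pow_abs (by decide : Even 6)]
  gcongr

variable {N : ℕ} {h h₁ h₂ : ℝ → ℝ} {B : ℝ}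

/-- The constant in the error of one step. -/
noncomputable def kap (B X : ℝ) : ℝ :=
  (1 + B ^ 6) * Real.exp (4 * B) + ∫ z, wK (Real.sqrt X * z) ∂(gaussianReal 0 1)

lemma kap_nonneg (hB : 0 ≤ B) (X : ℝ) : 0 ≤ kap B X :=
  add_nonneg (by positivity) (integral_nonneg fun _ => wK_nonneg _)

lemma scalar_step {A A' T X R Sc κ m s : ℝ} (hm0 : 0 < m) (hm1 : m < 1) (hs0 : 0 < s)
    (hs1 : s ≤ 1) (hκ : 0 ≤ κ) (hX : 0 ≤ X) (hT : 0 ≤ T) (hθ : T ≤ X) (hR : |R| ≤ 1)
    (hSig : T - (1 - R) * X ≤ Sc) (hsmall : 100 * s ^ 3 * κ ≤ 1)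
    (hpat : |A - (1 + m * s ^ 2 / 2 * (T - (1 - m) * Sc))| ≤ 50 * s ^ 3 * κ)
    (hfld : |A' - (1 + m * s ^ 2 / 2 * (X - (1 - m) * (X * R)))| ≤ 50 * s ^ 3 * κ) :
    A ≤ Real.exp (-(m ^ 2 * s ^ 2 / 2 * (X - T)) + s ^ 3 * (200 * κ + X * (X + 50 * κ))) * A' := by
  have hR' := abs_le.1 hR
  set E := 50 * s ^ 3 * κ
  have hE0 : 0 ≤ E := by positivity
  set D := m ^ 2 * s ^ 2 / 2 * (X - T)
  have hD0 : 0 ≤ D := mul_nonneg (by positivity) (by linarith)
  set u := m * s ^ 2 / 2 * (X - (1 - m) * (X * R))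
  have hu0 : 0 ≤ u := mul_nonneg (by positivity) (by nlinarith [mul_nonneg hX (by linarith [hR'.2] : 0 ≤ 1 - R)])
  have huX : u ≤ s ^ 2 * X := by
    have h1 : X - (1 - m) * (X * R) ≤ 2 * X := by
      nlinarith [mul_nonneg hX (by linarith [hR'.1] : 0 ≤ 1 + R)]
    calc u ≤ m * s ^ 2 / 2 * (2 * X) := mul_le_mul_of_nonneg_left h1 (by positivity)
      _ ≤ _ := by nlinarith [mul_nonneg (sq_nonneg s) hX]
  obtain ⟨hp1', hp2'⟩ := abs_le.1 hpat
  obtain ⟨hf1', hf2'⟩ := abs_le.1 hfld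
  have hA : A ≤ A' - D + 2 * E := by
    have h1 : m * s ^ 2 / 2 * (T - (1 - m) * Sc) ≤ u - D := by
      have : u - D = m * s ^ 2 / 2 * (T - (1 - m) * (T - (1 - R) * X)) := by
        simp only [u, D]; ring
      rw [this]
      refine mul_le_mul_of_nonneg_left ?_ (by positivity)
      nlinarith [mul_le_mul_of_nonneg_left hSig (by linarith : 0 ≤ 1 - m)]
    linarith
  have hA' : 1 / 2 ≤ A' := by linarith
  have hA'u : A' - 1 ≤ s ^ 2 * (X + 50 * κ) := by
    have : E ≤ s ^ 2 * (50 * κ) := by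
      calc E = s ^ 2 * (50 * κ) * s := by simp only [E]; ring
        _ ≤ _ := mul_le_of_le_one_right (by positivity) hs1
    linarith
  have hDX : D ≤ s ^ 2 * X := by
    have hm2 : m ^ 2 ≤ 1 := by nlinarith
    have h1 : m ^ 2 * s ^ 2 ≤ 1 * s ^ 2 := mul_le_mul_of_nonneg_right hm2 (sq_nonneg s)
    calc D ≤ 1 * s ^ 2 / 2 * X := by
            simp only [D]
            exact mul_le_mul (by linarith) (by linarith) (by linarith) (by positivity)
      _ ≤ _ := by linarith [mul_nonneg (sq_nonneg s) hX]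
  have hkey : D * (A' - 1) ≤ s ^ 3 * (X * (X + 50 * κ)) := by
    calc D * (A' - 1) ≤ D * (s ^ 2 * (X + 50 * κ)) := mul_le_mul_of_nonneg_left hA'u hD0
      _ ≤ s ^ 2 * X * (s ^ 2 * (X + 50 * κ)) := mul_le_mul_of_nonneg_right hDX (by positivity)
      _ = s ^ 3 * (X * (X + 50 * κ)) * s := by ring
      _ ≤ _ := mul_le_of_le_one_right (by positivity) hs1
  set e := -D + s ^ 3 * (200 * κ + X * (X + 50 * κ))
  have hAe : A' - D + 2 * E ≤ (1 + e) * A' := by
    have h4 : 2 * E ≤ s ^ 3 * (200 * κ) * A' := by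
      calc 2 * E = s ^ 3 * (200 * κ) * (1 / 2) := by simp only [E]; ring
        _ ≤ _ := mul_le_mul_of_nonneg_left hA' (by positivity)
    have h5 : D * (A' - 1) ≤ s ^ 3 * (X * (X + 50 * κ)) * A' := by
      rcases le_total 1 A' with h | h
      · exact hkey.trans (le_mul_of_one_le_right (by positivity) h)
      · exact (mul_nonpos_of_nonneg_of_nonpos hD0 (by linarith)).trans
          (mul_nonneg (by positivity) (by linarith))
    simp only [e]
    linarith
  exact hA.trans (hAe.trans (mul_le_mul_of_nonneg_right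
    (by linarith [Real.add_one_le_exp e]) (by linarith)))

lemma cov_lin_ge (hN : 0 < N) (S : Sm h h₁ h₂) (heven : ∀ x, h (-x) = h x)
    (σ σ' : Fin N → Bool) :
    (∫ z, h z ^ 2 ∂(gaussianReal 0 1)) - (1 - ∑ i, xv σ i * xv σ' i) * (∫ z, h₁ z ^ 2 ∂(gaussianReal 0 1))
      ≤ ∫ g, h (lin g σ) * h (lin g σ') ∂gaussVec (Fin N) := by
  obtain ⟨C, hC⟩ := S.bdd
  have hx := xv_unit hN σ
  have hy := xv_unit hN σ'
  have hX : 0 ≤ ∫ z, h₁ z ^ 2 ∂(gaussianReal 0 1) := integral_nonneg fun _ => sq_nonneg _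
  rcases le_total 0 (∑ i, xv σ i * xv σ' i) with h0 | h0
  · have h1 := (abs_le.1 (abs_overlap_le hx hy)).2
    have hc := cov_eq (xv σ) (xv σ') hx hy h0 S.cont.measurable fun x => (hC x).1
    simp only [lin]
    rw [hc]
    exact cov_ge S ⟨h0, h1⟩
  · have hy' : ∑ i, (-xv σ' i) ^ 2 = 1 := by simpa using hy
    have h0' : 0 ≤ ∑ i, xv σ i * -xv σ' i := by simpa using h0
    have h1 := (abs_le.1 (abs_overlap_le hx hy')).2
    have hc := cov_eq (xv σ) (fun i => -xv σ' i) hx hy' h0' S.cont.measurable fun x => (hC x).1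
    have e : ∀ g : Fin N → ℝ, h (∑ i, g i * -xv σ' i) = h (lin g σ') := fun g => by
      simp [lin, heven]
    simp only [e] at hc
    change _ ≤ ∫ g, h (∑ i, g i * xv σ i) * h (lin g σ') ∂gaussVec (Fin N)
    rw [hc]
    refine le_trans ?_ (cov_ge S ⟨h0', h1⟩)
    simp only [mul_neg, Finset.sum_neg_distrib]
    nlinarith

/-- One pattern against one field increment. -/
lemma one_step (hN : 0 < N) (S : Sm h h₁ h₂) (hb : ∀ x, |h x| ≤ B) (heven : ∀ x, h (-x) = h x)
    (h0 : ∫ z, h z ∂(gaussianReal 0 1) = 0) (hθ : ∫ z, h z ^ 2 ∂(gaussianReal 0 1) ≤ ∫ z, h₁ z ^ 2 ∂(gaussianReal 0 1)) {m s : ℝ} (hm0 : 0 < m)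
    (hm1 : m < 1) (hs0 : 0 < s) (hs1 : s ≤ 1)
    (hsmall : 100 * s ^ 3 * kap B (∫ z, h₁ z ^ 2 ∂(gaussianReal 0 1)) ≤ 1) (b : (Fin N → Bool) → ℝ) :
    ∫ g, (∑ σ, Real.exp (b σ + s * h (lin g σ))) ^ m ∂gaussVec (Fin N)
      ≤ Real.exp (-(m ^ 2 * s ^ 2 / 2 * ((∫ z, h₁ z ^ 2 ∂(gaussianReal 0 1)) - ∫ z, h z ^ 2 ∂(gaussianReal 0 1)))
          + s ^ 3 * (200 * kap B (∫ z, h₁ z ^ 2 ∂(gaussianReal 0 1)) + (∫ z, h₁ z ^ 2 ∂(gaussianReal 0 1))
            * ((∫ z, h₁ z ^ 2 ∂(gaussianReal 0 1)) + 50 * kap B (∫ z, h₁ z ^ 2 ∂(gaussianReal 0 1)))))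
        * ∫ g, (∑ σ, Real.exp (b σ + s * (Real.sqrt (∫ z, h₁ z ^ 2 ∂(gaussianReal 0 1)) * lin g σ))) ^ m
            ∂gaussVec (Fin N) := by
  set X := ∫ z, h₁ z ^ 2 ∂(gaussianReal 0 1)
  set T := ∫ z, h z ^ 2 ∂(gaussianReal 0 1)
  set κ := kap B X
  have hB : 0 ≤ B := (abs_nonneg _).trans (hb 0)
  have hX : 0 ≤ X := integral_nonneg fun _ => sq_nonneg _
  have hT : 0 ≤ T := integral_nonneg fun _ => sq_nonneg _
  have hκ : 0 ≤ κ := kap_nonneg hB X
  set W := ∑ σ, Real.exp (b σ)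
  have hW : 0 < W := Finset.sum_pos (fun σ _ => Real.exp_pos _) Finset.univ_nonempty
  set p := fun σ => Real.exp (b σ) / W with hpd
  have hp : ∀ σ, 0 ≤ p σ := fun σ => div_nonneg (Real.exp_pos _).le hW.le
  have hp1 : ∑ σ, p σ = 1 := by simp only [hpd, ← Finset.sum_div]; exact div_self hW.ne'
  have hfac : ∀ V : (Fin N → Bool) → ℝ, (∑ σ, Real.exp (b σ + s * V σ)) ^ m
      = W ^ m * (∑ σ, p σ * Real.exp (s * V σ)) ^ m := fun V => by
    rw [← Real.mul_rpow hW.le (Finset.sum_nonneg fun σ _ => mul_nonneg (hp σ) (Real.exp_pos _).le),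
      Finset.mul_sum]
    congr 1
    refine Finset.sum_congr rfl fun σ _ => ?_
    simp only [hpd]
    rw [Real.exp_add]
    field_simp
  have hm := S.cont.measurable
  have hlin : ∀ σ : Fin N → Bool, ∀ (F : ℝ → ℝ), Measurable F →
      ∫ g, F (lin g σ) ∂gaussVec (Fin N) = ∫ z, F z ∂(gaussianReal 0 1) := fun σ F hF => by
    unfold lin; rw [integral_linear (xv σ) hF, xv_unit hN σ]; simp
  have hwm : Measurable wK := by unfold wK; fun_prop
  -- the pattern
  obtain ⟨-, hpat⟩ := step_avg (gaussVec (Fin N)) hp hp1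
    (V := fun g σ => h (lin g σ)) (τ := T) (κ := κ)
    (c := fun σ σ' => ∫ g, h (lin g σ) * h (lin g σ') ∂gaussVec (Fin N))
    (fun σ => hm.comp (measurable_lin σ))
    (fun σ => bdd_int (hm.comp (measurable_lin σ)) fun g => hb _)
    (fun σ => (hlin σ h hm).trans h0)
    (fun σ σ' => bdd_int ((hm.comp (measurable_lin σ)).mul (hm.comp (measurable_lin σ')))
      (C := B * B) fun g => by rw [abs_mul]; exact mul_le_mul (hb _) (hb _) (abs_nonneg _) hB)
    (fun σ σ' => rfl)
    (fun σ => by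
      have := hlin σ (fun t => h t * h t) (hm.mul hm)
      simp only [this, T, sq])
    (fun σ => bdd_int (hwm.comp (hm.comp (measurable_lin σ))) (C := (1 + B ^ 6) * Real.exp (4 * B))
      fun g => by
        rw [abs_of_nonneg (wK_nonneg _)]
        exact wK_le (hb _))
    (fun σ => by
      rw [hlin σ (fun t => wK (h t)) (hwm.comp hm)]
      refine le_trans ?_ (le_add_of_nonneg_right (integral_nonneg fun _ => wK_nonneg _))
      refine (integral_mono (bdd_int (hwm.comp hm) (C := (1 + B ^ 6) * Real.exp (4 * B)) fun z => ?_)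
        (integrable_const ((1 + B ^ 6) * Real.exp (4 * B))) fun z => ?_).trans (le_of_eq (by simp))
      · rw [Function.comp_apply, abs_of_nonneg (wK_nonneg _)]; exact wK_le (hb _)
      · exact wK_le (hb _))
    hm0 hm1 hs0 hs1
  -- the field
  obtain ⟨-, hfld⟩ := step_avg (gaussVec (Fin N)) hp hp1
    (V := fun g σ => Real.sqrt X * lin g σ) (τ := X) (κ := κ)
    (c := fun σ σ' => X * ∑ i, xv σ i * xv σ' i)
    (fun σ => (measurable_lin σ).const_mul _)
    (fun σ => by
      unfold lin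
      exact (integrable_linear (xv σ) (F := fun y => y) measurable_id (by
        simpa [xv_unit hN σ] using integrable_pow_gauss 1)).const_mul _)
    (fun σ => by rw [integral_const_mul]; unfold lin; rw [integral_linear_id, mul_zero])
    (fun σ σ' => by
      refine ((integrable_linear_mul (xv σ) (xv σ')).const_mul X).congr (ae_of_all _ fun g => ?_)
      simp only [lin]
      rw [mul_mul_mul_comm, Real.mul_self_sqrt hX])
    (fun σ σ' => by
      rw [show (fun g => Real.sqrt X * lin g σ * (Real.sqrt X * lin g σ'))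
        = fun g => X * (lin g σ * lin g σ') from funext fun g => by
          rw [mul_mul_mul_comm, Real.mul_self_sqrt hX], integral_const_mul]
      unfold lin
      rw [integral_linear_mul])
    (fun σ => by simp only [← sq, xv_unit hN σ, mul_one])
    (fun σ => by
      unfold lin
      refine integrable_linear (xv σ) (F := fun y => wK (Real.sqrt X * y)) (by fun_prop) ?_
      simpa [xv_unit hN σ] using integrable_wK_gauss (Real.sqrt X))
    (fun σ => by
      rw [hlin σ (fun t => wK (Real.sqrt X * t)) (by fun_prop)]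
      exact le_add_of_nonneg_left (by positivity))
    hm0 hm1 hs0 hs1
  simp_rw [hfac]
  rw [integral_const_mul, integral_const_mul, ← mul_assoc, mul_comm (Real.exp _), mul_assoc]
  refine mul_le_mul_of_nonneg_left ?_ (Real.rpow_nonneg hW.le m)
  set A := ∫ g, (∑ σ, p σ * Real.exp (s * h (lin g σ))) ^ m ∂gaussVec (Fin N)
  set A' := ∫ g, (∑ σ, p σ * Real.exp (s * (Real.sqrt X * lin g σ))) ^ m ∂gaussVec (Fin N)
  set Sc := ∑ σ, ∑ σ', p σ * p σ' * ∫ g, h (lin g σ) * h (lin g σ') ∂gaussVec (Fin N)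
  set R := ∑ σ, ∑ σ', p σ * p σ' * ∑ i, xv σ i * xv σ' i
  have hRc : (∑ σ, ∑ σ', p σ * p σ' * (X * ∑ i, xv σ i * xv σ' i)) = X * R := by
    simp only [R, Finset.mul_sum]
    exact Finset.sum_congr rfl fun σ _ => Finset.sum_congr rfl fun σ' _ =>
      Finset.sum_congr rfl fun i _ => by ring
  rw [hRc] at hfld
  have hpp : ∑ σ, ∑ σ', p σ * p σ' = 1 := by simp [← Finset.mul_sum, hp1]
  have hR : |R| ≤ 1 := by
    refine (Finset.abs_sum_le_sum_abs _ _).trans (le_of_le_of_eq (Finset.sum_le_sum fun σ _ =>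
      (Finset.abs_sum_le_sum_abs _ _).trans (Finset.sum_le_sum fun σ' _ => ?_)) hpp)
    rw [abs_mul, abs_of_nonneg (mul_nonneg (hp σ) (hp σ'))]
    exact mul_le_of_le_one_right (mul_nonneg (hp σ) (hp σ'))
      (abs_overlap_le (xv_unit hN σ) (xv_unit hN σ'))
  have hSig : T - (1 - R) * X ≤ Sc := by
    have e : T - (1 - R) * X
        = ∑ σ, ∑ σ', p σ * p σ' * (T - (1 - ∑ i, xv σ i * xv σ' i) * X) := by
      simp only [sub_mul, one_mul, mul_sub, Finset.sum_sub_distrib, ← Finset.sum_mul,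
        ← mul_assoc, hpp, R]
    rw [e]
    exact Finset.sum_le_sum fun σ _ => Finset.sum_le_sum fun σ' _ =>
      mul_le_mul_of_nonneg_left (cov_lin_ge hN S heven σ σ') (mul_nonneg (hp σ) (hp σ'))
  exact scalar_step hm0 hm1 hs0 hs1 hκ hX hT hθ hR hSig hsmall hpat hfld

lemma exp_lin_integrable (c : ℝ) (σ : Fin N → Bool) :
    Integrable (fun g => Real.exp (c * lin g σ)) (gaussVec (Fin N)) := by
  unfold lin
  refine integrable_linear (xv σ) (F := fun y => Real.exp (c * y)) (by fun_prop) ?_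
  simp only [← mul_assoc]
  exact integrable_exp_mul_gaussianReal _

lemma field_integrable {m : ℝ} (hm0 : 0 < m) (hm1 : m < 1) {M : ℕ} (c : ℝ)
    (b : (Fin N → Bool) → ℝ) :
    Integrable (fun g : Fin M → Fin N → ℝ =>
      (∑ σ, Real.exp (b σ + ∑ a, c * lin (g a) σ)) ^ m)
      (Measure.pi fun _ : Fin M => gaussVec (Fin N)) := by
  have hi : Integrable (fun g : Fin M → Fin N → ℝ =>
      1 + ∑ σ, Real.exp (b σ) * ∏ a, Real.exp (c * lin (g a) σ))
      (Measure.pi fun _ : Fin M => gaussVec (Fin N)) :=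
    (integrable_const 1).add (integrable_finsetSum _ fun σ _ =>
      (Integrable.fintype_prod fun _ => exp_lin_integrable c σ).const_mul _)
  refine hi.mono' ?_ (ae_of_all _ fun g => ?_)
  · refine (Measurable.pow_const ?_ m).aestronglyMeasurable
    exact Finset.measurable_sum _ fun σ _ => (measurable_const.add
      (Finset.measurable_sum _ fun a _ =>
        ((measurable_lin σ).comp (measurable_pi_apply a)).const_mul c)).exp
  · have h0 : 0 ≤ ∑ σ, Real.exp (b σ + ∑ a, c * lin (g a) σ) :=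
      Finset.sum_nonneg fun _ _ => (Real.exp_pos _).le
    rw [Real.norm_eq_abs, abs_of_nonneg (Real.rpow_nonneg h0 m)]
    have he : ∀ σ, Real.exp (b σ) * ∏ a, Real.exp (c * lin (g a) σ)
        = Real.exp (b σ + ∑ a, c * lin (g a) σ) := fun σ => by
      rw [Real.exp_add, Real.exp_sum]
    simp only [he]
    rcases le_total (∑ σ, Real.exp (b σ + ∑ a, c * lin (g a) σ)) 1 with h | h
    · linarith [Real.rpow_le_one h0 h hm0.le]
    · exact (Real.rpow_le_rpow_of_exponent_le h hm1.le).trans (by rw [Real.rpow_one]; linarith)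

/-- Replacing all patterns by field increments. -/
lemma swap_all (hh : Measurable h) (hb : ∀ x, |h x| ≤ B) {m s c d : ℝ} (hm0 : 0 < m) (hm1 : m < 1)
    (hstep : ∀ b : (Fin N → Bool) → ℝ,
      ∫ g, (∑ σ, Real.exp (b σ + s * h (lin g σ))) ^ m ∂gaussVec (Fin N)
        ≤ Real.exp d * ∫ g, (∑ σ, Real.exp (b σ + c * lin g σ)) ^ m ∂gaussVec (Fin N)) :
    ∀ (M : ℕ) (b : (Fin N → Bool) → ℝ),
      ∫ g, (∑ σ, Real.exp (b σ + ∑ a, s * h (lin (g a) σ))) ^ m
          ∂Measure.pi (fun _ : Fin M => gaussVec (Fin N))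
        ≤ Real.exp (M * d) * ∫ g, (∑ σ, Real.exp (b σ + ∑ a, c * lin (g a) σ)) ^ m
          ∂Measure.pi (fun _ : Fin M => gaussVec (Fin N))
  | 0, b => by simp
  | M + 1, b => by
    set P := Measure.pi fun _ : Fin M => gaussVec (Fin N)
    have hsucc := (measurePreserving_piFinSuccAbove (fun _ : Fin (M + 1) => gaussVec (Fin N)) 0).symm
    have hsplit : ∀ (u : (Fin N → ℝ) → (Fin N → Bool) → ℝ),
        ∫ g, (∑ σ, Real.exp (b σ + ∑ a, u (g a) σ)) ^ m
            ∂Measure.pi (fun _ : Fin (M + 1) => gaussVec (Fin N))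
          = ∫ z, (∑ σ, Real.exp ((b σ + u z.1 σ) + ∑ a, u (z.2 a) σ)) ^ m
            ∂(gaussVec (Fin N)).prod P := fun u => by
      rw [← hsucc.integral_comp']
      refine integral_congr_ae (ae_of_all _ fun z => ?_)
      simp [MeasurableEquiv.piFinSuccAbove, Fin.insertNthEquiv, Fin.sum_univ_succ, add_assoc]
    have hfint : Integrable (fun z : (Fin N → ℝ) × (Fin M → Fin N → ℝ) =>
        (∑ σ, Real.exp ((b σ + c * lin z.1 σ) + ∑ a, c * lin (z.2 a) σ)) ^ m)
        ((gaussVec (Fin N)).prod P) := by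
      refine ((hsucc.integrable_comp_emb (MeasurableEquiv.measurableEmbedding _)).2
        (field_integrable hm0 hm1 (M := M + 1) c b)).congr (ae_of_all _ fun z => ?_)
      simp [MeasurableEquiv.piFinSuccAbove, Fin.insertNthEquiv, Fin.sum_univ_succ, add_assoc]
    -- mixed: the first pattern, the others already fields
    set G : (Fin N → ℝ) × (Fin M → Fin N → ℝ) → ℝ := fun z =>
      (∑ σ, Real.exp ((b σ + s * h (lin z.1 σ)) + ∑ a, c * lin (z.2 a) σ)) ^ m
    have hcomp : ∀ (u : (Fin N → ℝ) → (Fin N → Bool) → ℝ), (∀ σ, Measurable fun g => u g σ) →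
        Measurable fun z : (Fin N → ℝ) × (Fin M → Fin N → ℝ) =>
          (∑ σ, Real.exp ((b σ + s * h (lin z.1 σ)) + ∑ a, u (z.2 a) σ)) ^ m := fun u hu =>
      (Finset.measurable_sum _ fun σ _ => ((measurable_const.add
        ((hh.comp ((measurable_lin σ).comp measurable_fst)).const_mul s)).add
        (Finset.measurable_sum _ fun a _ =>
          (hu σ).comp ((measurable_pi_apply a).comp measurable_snd))).exp).pow_const m
    have hGint : Integrable G ((gaussVec (Fin N)).prod P) := by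
      refine Integrable.mono' (g := fun z => (Real.exp (|s| * B)) ^ m *
        (∑ σ, Real.exp (b σ + ∑ a, c * lin (z.2 a) σ)) ^ m) ?_
        (hcomp (fun g σ => c * lin g σ) fun σ => (measurable_lin σ).const_mul c).aestronglyMeasurable
        (ae_of_all _ fun z => ?_)
      · exact ((field_integrable hm0 hm1 c b).comp_snd _).const_mul _
      · have h0 : 0 ≤ ∑ σ, Real.exp ((b σ + s * h (lin z.1 σ)) + ∑ a, c * lin (z.2 a) σ) :=
          Finset.sum_nonneg fun _ _ => (Real.exp_pos _).le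
        rw [Real.norm_eq_abs, abs_of_nonneg (Real.rpow_nonneg h0 m),
          ← Real.mul_rpow (Real.exp_pos _).le (Finset.sum_nonneg fun _ _ => (Real.exp_pos _).le)]
        refine Real.rpow_le_rpow h0 ?_ hm0.le
        rw [Finset.mul_sum]
        refine Finset.sum_le_sum fun σ _ => ?_
        rw [← Real.exp_add]
        refine Real.exp_le_exp.2 ?_
        have : s * h (lin z.1 σ) ≤ |s| * B := (le_abs_self _).trans
          (by rw [abs_mul]; exact mul_le_mul_of_nonneg_left (hb _) (abs_nonneg _))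
        linarith
    have hHint : Integrable (fun z : (Fin N → ℝ) × (Fin M → Fin N → ℝ) =>
        (∑ σ, Real.exp ((b σ + s * h (lin z.1 σ)) + ∑ a, s * h (lin (z.2 a) σ))) ^ m)
        ((gaussVec (Fin N)).prod P) := by
      refine bdd_int (hcomp (fun g σ => s * h (lin g σ))
        fun σ => (hh.comp (measurable_lin σ)).const_mul s)
        (C := (∑ σ, Real.exp (b σ + |s| * B + ∑ _a : Fin M, |s| * B)) ^ m) fun z => ?_
      have h0 : 0 ≤ ∑ σ, Real.exp ((b σ + s * h (lin z.1 σ)) + ∑ a, s * h (lin (z.2 a) σ)) :=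
        Finset.sum_nonneg fun _ _ => (Real.exp_pos _).le
      have hle : ∀ t, s * h t ≤ |s| * B := fun t => (le_abs_self _).trans
        (by rw [abs_mul]; exact mul_le_mul_of_nonneg_left (hb _) (abs_nonneg _))
      rw [abs_of_nonneg (Real.rpow_nonneg h0 m)]
      exact Real.rpow_le_rpow h0 (Finset.sum_le_sum fun σ _ => Real.exp_le_exp.2
        (add_le_add (add_le_add le_rfl (hle _)) (Finset.sum_le_sum fun a _ => hle _))) hm0.le
    calc ∫ g, (∑ σ, Real.exp (b σ + ∑ a, s * h (lin (g a) σ))) ^ m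
          ∂Measure.pi (fun _ : Fin (M + 1) => gaussVec (Fin N))
        = ∫ x, ∫ g, (∑ σ, Real.exp ((b σ + s * h (lin x σ)) + ∑ a, s * h (lin (g a) σ))) ^ m ∂P
            ∂gaussVec (Fin N) := by
          rw [hsplit fun g σ => s * h (lin g σ), integral_prod _ hHint]
      _ ≤ ∫ x, Real.exp (M * d) * (∫ g, G (x, g) ∂P) ∂gaussVec (Fin N) :=
          integral_mono hHint.integral_prod_left (hGint.integral_prod_left.const_mul _) fun x =>
            swap_all hh hb hm0 hm1 hstep M fun σ => b σ + s * h (lin x σ)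
      _ = Real.exp (M * d) * ∫ g, ∫ x, G (x, g) ∂gaussVec (Fin N) ∂P := by
          rw [integral_const_mul, integral_integral_swap (f := fun x g => G (x, g)) hGint]
      _ ≤ Real.exp (M * d) * ∫ g, Real.exp d * ∫ x,
            (∑ σ, Real.exp ((b σ + c * lin x σ) + ∑ a, c * lin (g a) σ)) ^ m
              ∂gaussVec (Fin N) ∂P := by
          refine mul_le_mul_of_nonneg_left (integral_mono hGint.integral_prod_right
            (hfint.integral_prod_right.const_mul _) fun g => ?_) (Real.exp_pos _).le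
          simpa only [G, add_right_comm] using hstep fun σ => b σ + ∑ a, c * lin (g a) σ
      _ = _ := by
          rw [hsplit fun g σ => c * lin g σ, integral_const_mul,
            integral_prod_symm _ hfint, ← mul_assoc, ← Real.exp_add]
          push_cast
          rw [add_one_mul]

/-- The field part. -/
lemma field_bound {m : ℝ} (hm0 : 0 < m) (hm1 : m < 1) {c : ℝ} (hc : 0 ≤ c) (M : ℕ) :
    ∫ g, (∑ σ, Real.exp (-(N * Real.log 2) + ∑ a, c * lin (g a) σ)) ^ m
        ∂Measure.pi (fun _ : Fin M => gaussVec (Fin N))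
      ≤ (∫ z, Real.exp (m * c * Real.sqrt ((M : ℝ) / N) * |z|) ∂(gaussianReal 0 1)) ^ N := by
  set K := c / Real.sqrt N
  have hK : 0 ≤ K := div_nonneg hc (Real.sqrt_nonneg _)
  have hb : ∀ g : Fin M → Fin N → ℝ,
      (∑ σ : Fin N → Bool, Real.exp (-(N * Real.log 2) + ∑ a, c * lin (g a) σ)) ^ m
        ≤ ∏ i, Real.exp (m * K * |∑ a, g a i|) := by
    intro g
    rw [← Real.exp_sum]
    have h0 : 0 ≤ ∑ σ : Fin N → Bool, Real.exp (-(N * Real.log 2) + ∑ a, c * lin (g a) σ) :=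
      Finset.sum_nonneg fun _ _ => (Real.exp_pos _).le
    have hle : ∑ σ : Fin N → Bool, Real.exp (-(N * Real.log 2) + ∑ a, c * lin (g a) σ)
        ≤ Real.exp (∑ i, K * |∑ a, g a i|) := by
      refine (Finset.sum_le_sum (g := fun _ => Real.exp (-(N * Real.log 2))
        * Real.exp (∑ i, K * |∑ a, g a i|)) fun σ _ => ?_).trans (le_of_eq ?_)
      · rw [← Real.exp_add]
        refine Real.exp_le_exp.2 (add_le_add le_rfl ?_)
        simp only [lin, Finset.mul_sum]
        rw [Finset.sum_comm]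
        refine Finset.sum_le_sum fun i _ => ?_
        rw [show (∑ a, c * (g a i * xv σ i)) = K * ((∑ a, g a i) * sg σ i) by
          simp only [Finset.sum_mul, Finset.mul_sum, K, xv]
          exact Finset.sum_congr rfl fun a _ => by ring]
        refine mul_le_mul_of_nonneg_left ((le_abs_self _).trans (le_of_eq ?_)) hK
        have hsg : |sg σ i| = 1 := by unfold sg; split <;> simp
        rw [abs_mul, hsg, mul_one]
      · rw [Finset.sum_const, Finset.card_univ, nsmul_eq_mul, ← mul_assoc, Real.exp_neg,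
          Real.exp_nat_mul, Real.exp_log two_pos]
        simp
    refine (Real.rpow_le_rpow h0 hle hm0.le).trans (le_of_eq ?_)
    rw [← Real.exp_mul, Finset.sum_mul]
    congr 1
    exact Finset.sum_congr rfl fun i _ => by ring
  have hmeas : Measurable fun v : Fin N → ℝ => ∏ i, Real.exp (m * K * |v i|) := by fun_prop
  have hi : Integrable (fun v : Fin N → ℝ => ∏ i, Real.exp (m * K * |Real.sqrt M * v i|))
      (gaussVec (Fin N)) := by
    refine Integrable.fintype_prod (f := fun _ x => Real.exp (m * K * |Real.sqrt M * x|))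
      (μ := fun _ : Fin N => (gaussianReal 0 1)) fun i => ?_
    simp only [abs_mul, ← mul_assoc]
    exact integrable_exp_abs_mul _
  have hi' : Integrable (fun v : Fin N → ℝ => ∏ i, Real.exp (m * K * |v i|))
      ((Measure.pi fun _ : Fin M => gaussVec (Fin N)).map fun g j => ∑ a, g a j) := by
    rw [map_sum_vec]
    exact (integrable_map_measure hmeas.aestronglyMeasurable
      (Measurable.aemeasurable (by fun_prop))).2 hi
  refine (integral_mono (field_integrable hm0 hm1 c fun _ => -(N * Real.log 2))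
    ((integrable_map_measure hmeas.aestronglyMeasurable
      (Measurable.aemeasurable (by fun_prop))).1 hi') hb).trans (le_of_eq ?_)
  simp only [Function.comp_apply]
  rw [← integral_map (φ := fun (g : Fin M → Fin N → ℝ) j => ∑ a, g a j)
    (f := fun v => ∏ i, Real.exp (m * K * |v i|)) (Measurable.aemeasurable (by fun_prop))
      hmeas.aestronglyMeasurable,
    map_sum_vec, integral_map (Measurable.aemeasurable (by fun_prop)) hmeas.aestronglyMeasurable]
  simp only [gaussVec]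
  rw [integral_fintype_prod_eq_prod (f := fun _ x => Real.exp (m * K * |Real.sqrt M * x|)),
    Finset.prod_const, Finset.card_univ, Fintype.card_fin]
  congr 1
  refine integral_congr_ae (ae_of_all _ fun z => ?_)
  simp only
  rw [abs_mul, abs_of_nonneg (Real.sqrt_nonneg _), Real.sqrt_div (Nat.cast_nonneg M)]
  simp only [K]
  ring_nf

variable {f f₁ f₂ f₃ : ℝ → ℝ} {C a : ℝ}

/-- The one-step bound at finite `N`. -/
lemma pressure_le (W : Pot f f₁ f₂ f₃ C a) {α : ℝ} (hN : 0 < N) {m s : ℝ} (hm0 : 0 < m)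
    (hm1 : m < 1) (hs0 : 0 < s) (hs1 : s ≤ 1)
    (hsmall : 100 * s ^ 3 * kap (2 * C) (∫ z, f₁ z ^ 2 ∂(gaussianReal 0 1)) ≤ 1) :
    pressure α f N (isingMeasure N)
      ≤ (⌊α * N⌋₊ : ℝ) / N * (∫ z, f z ∂(gaussianReal 0 1)) + (1 / s - 1) * Real.log 2 + 1 / (s * m) *
        (Real.log (∫ z, Real.exp (m * (s * Real.sqrt (∫ z, f₁ z ^ 2 ∂(gaussianReal 0 1)))
            * Real.sqrt ((⌊α * N⌋₊ : ℝ) / N) * |z|) ∂(gaussianReal 0 1))
          + (⌊α * N⌋₊ : ℝ) / N * (-(m ^ 2 * s ^ 2 / 2 * ((∫ z, f₁ z ^ 2 ∂(gaussianReal 0 1))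
              - ∫ z, (f z - ∫ u, f u ∂(gaussianReal 0 1)) ^ 2 ∂(gaussianReal 0 1)))
            + s ^ 3 * (200 * kap (2 * C) (∫ z, f₁ z ^ 2 ∂(gaussianReal 0 1)) + (∫ z, f₁ z ^ 2 ∂(gaussianReal 0 1))
              * ((∫ z, f₁ z ^ 2 ∂(gaussianReal 0 1)) + 50 * kap (2 * C) (∫ z, f₁ z ^ 2 ∂(gaussianReal 0 1)))))) := by
  set M := ⌊α * N⌋₊
  set m₀ := ∫ z, f z ∂(gaussianReal 0 1)
  set X := ∫ z, f₁ z ^ 2 ∂(gaussianReal 0 1)
  set h : ℝ → ℝ := fun x => f x - m₀ with hh
  have hfi : Integrable f (gaussianReal 0 1) := bdd_int W.smF.cont.measurable fun x => (W.bdd x).1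
  have hm₀ : |m₀| ≤ C := by
    simpa using norm_integral_le_of_norm_le_const (μ := (gaussianReal 0 1)) (f := f) (C := C)
      (ae_of_all _ fun x => (W.bdd x).1)
  have hhb : ∀ x, |h x| ≤ 2 * C := fun x =>
    (abs_sub _ _).trans (by linarith [(W.bdd x).1])
  have Sh : Sm h f₁ f₂ := ⟨fun x => (W.d0 x).sub_const m₀, W.d1, 2 * C, fun x =>
    ⟨hhb x, by linarith [(W.bdd x).2.1, W.C_nonneg], by linarith [(W.bdd x).2.2.1, W.C_nonneg]⟩⟩
  have heven : ∀ x, h (-x) = h x := fun x => by simp [hh, W.even]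
  have hzero : ∫ z, h z ∂(gaussianReal 0 1) = 0 := by
    simp only [hh]; rw [integral_sub hfi (integrable_const _)]; simp [m₀]
  have hX : 0 ≤ X := integral_nonneg fun _ => sq_nonneg _
  have hθ : ∫ z, h z ^ 2 ∂(gaussianReal 0 1) ≤ X := by
    linarith [variance_le_half Sh W.smF1 W.odd1 hzero]
  set d := -(m ^ 2 * s ^ 2 / 2 * (X - ∫ z, h z ^ 2 ∂(gaussianReal 0 1)))
    + s ^ 3 * (200 * kap (2 * C) X + X * (X + 50 * kap (2 * C) X)) with hd
  set c := s * Real.sqrt X with hc
  set P := Measure.pi fun _ : Fin M => gaussVec (Fin N)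
  set Z : (Fin M → Fin N → ℝ) → ℝ := fun g =>
    ∑ σ, Real.exp (-(N * Real.log 2) + ∑ a, s * h (lin (g a) σ)) with hZ
  have hswap := swap_all (N := N) Sh.cont.measurable hhb (m := m) (s := s) (c := c) (d := d)
    hm0 hm1 (fun b => by
      have := one_step hN Sh hhb heven hzero hθ hm0 hm1 hs0 hs1 hsmall b
      simpa only [hc, mul_assoc] using this) M fun _ => -(N * Real.log 2)
  have hfb := field_bound (N := N) hm0 hm1 (c := c) (mul_nonneg hs0.le (Real.sqrt_nonneg _)) M
  set A := ∫ z, Real.exp (m * c * Real.sqrt ((M : ℝ) / N) * |z|) ∂(gaussianReal 0 1)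
  have hA : 0 < A := integral_exp_pos (integrable_exp_abs_mul _)
  have hZpos : ∀ g, 0 < Z g := fun g =>
    Finset.sum_pos (fun σ _ => Real.exp_pos _) Finset.univ_nonempty
  set U := Real.exp (M * d) * A ^ N
  have hU : 0 < U := mul_pos (Real.exp_pos _) (pow_pos hA N)
  have hZU : ∫ g, Z g ^ m ∂P ≤ U :=
    hswap.trans (mul_le_mul_of_nonneg_left hfb (Real.exp_pos _).le)
  have hZm : Measurable fun g => Z g ^ m :=
    (Finset.measurable_sum _ fun σ _ => (measurable_const.add (Finset.measurable_sum _ fun a _ =>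
      (Sh.cont.measurable.comp ((measurable_lin σ).comp (measurable_pi_apply a))).const_mul s)).exp
        ).pow_const m
  have hZint : Integrable (fun g => Z g ^ m) P := by
    refine bdd_int hZm (C := (∑ _σ : Fin N → Bool,
      Real.exp (-(N * Real.log 2) + ∑ _a : Fin M, 2 * C)) ^ m) fun g => ?_
    rw [abs_of_nonneg (Real.rpow_nonneg (hZpos g).le m)]
    refine Real.rpow_le_rpow (hZpos g).le (Finset.sum_le_sum fun σ _ => Real.exp_le_exp.2
      (add_le_add le_rfl (Finset.sum_le_sum fun a _ => ?_))) hm0.le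
    calc s * h (lin (g a) σ) ≤ |s * h (lin (g a) σ)| := le_abs_self _
      _ ≤ 2 * C := by
        rw [abs_mul, abs_of_pos hs0]
        exact (mul_le_of_le_one_left (abs_nonneg _) hs1).trans (hhb _)
  set L : (Fin M → Fin N → ℝ) → ℝ := fun g =>
    Real.log (∫ x, Real.exp (∑ a, f ((∑ i, g a i * x i) / Real.sqrt N)) ∂isingMeasure N) with hL
  have hL_eq : ∀ g, L g = Real.log (∑ σ : Fin N → Bool,
      Real.exp (-(N * Real.log 2) + ∑ a, f (lin (g a) σ))) := fun g => by
    simp only [hL]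
    rw [integral_cube (by have := W.smF.cont; fun_prop), Finset.mul_sum]
    congr 1
    refine Finset.sum_congr rfl fun σ _ => ?_
    rw [Real.exp_add, Real.exp_neg, Real.exp_nat_mul, Real.exp_log two_pos, inv_pow]
    congr 2
    refine Finset.sum_congr rfl fun a _ => ?_
    simp only [lin, xv, Finset.sum_div]
    congr 1
    exact Finset.sum_congr rfl fun i _ => by ring
  have hpt : ∀ g, L g ≤ M * m₀ + (1 / s - 1) * (N * Real.log 2)
      + 1 / (s * m) * (Real.log U + Z g ^ m / U - 1) := fun g => by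
    rw [hL_eq]
    set H : (Fin N → Bool) → ℝ := fun σ => ∑ a, f (lin (g a) σ)
    set W0 := ∑ σ, Real.exp (H σ)
    have hW0 : 0 < W0 := Finset.sum_pos (fun σ _ => Real.exp_pos _) Finset.univ_nonempty
    have h1 : Real.log (∑ σ : Fin N → Bool, Real.exp (-(N * Real.log 2) + H σ))
        = -(N * Real.log 2) + Real.log W0 := by
      simp only [Real.exp_add, ← Finset.mul_sum]
      rw [Real.log_mul (Real.exp_ne_zero _) hW0.ne', Real.log_exp]
    have h2 : s * Real.log W0 ≤ Real.log (∑ σ, Real.exp (s * H σ)) := by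
      rw [← Real.log_rpow hW0]
      refine Real.log_le_log (Real.rpow_pos_of_pos hW0 s) ?_
      have h4 : (1 : ℝ) ≤ ∑ σ, (Real.exp (H σ) / W0) ^ s := by
        calc (1 : ℝ) = ∑ σ, Real.exp (H σ) / W0 := by rw [← Finset.sum_div, div_self hW0.ne']
          _ ≤ _ := Finset.sum_le_sum fun σ hσ => Real.self_le_rpow_of_le_one (by positivity)
            ((div_le_one hW0).2 (Finset.single_le_sum (f := fun τ => Real.exp (H τ))
              (fun τ _ => (Real.exp_pos _).le) hσ)) hs1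
      have h5 : ∑ σ, (Real.exp (H σ) / W0) ^ s = (∑ σ, Real.exp (s * H σ)) / W0 ^ s := by
        rw [Finset.sum_div]
        refine Finset.sum_congr rfl fun σ _ => ?_
        rw [Real.div_rpow (Real.exp_pos _).le hW0.le, ← Real.exp_mul, mul_comm]
      rw [h5, le_div_iff₀ (Real.rpow_pos_of_pos hW0 s), one_mul] at h4
      exact h4
    have h3 : Real.log (∑ σ, Real.exp (s * H σ)) = s * (M * m₀) + N * Real.log 2 + Real.log (Z g) := by
      have : ∀ σ, Real.exp (s * H σ) = Real.exp (s * (M * m₀) + N * Real.log 2)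
          * Real.exp (-(N * Real.log 2) + ∑ a, s * h (lin (g a) σ)) := fun σ => by
        rw [← Real.exp_add]
        congr 1
        simp only [H, hh, ← Finset.mul_sum, Finset.sum_sub_distrib, Finset.sum_const,
          Finset.card_univ, Fintype.card_fin, nsmul_eq_mul]
        ring
      rw [Finset.sum_congr rfl fun σ _ => this σ, ← Finset.mul_sum,
        Real.log_mul (Real.exp_ne_zero _) (hZpos g).ne', Real.log_exp]
    have h6 := log_le_affine (Real.rpow_pos_of_pos (hZpos g) m) hU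
    rw [Real.log_rpow (hZpos g)] at h6
    rw [h3] at h2
    rw [h1]
    have h7 : Real.log W0 ≤ M * m₀ + 1 / s * (N * Real.log 2)
        + 1 / (s * m) * (Real.log U + Z g ^ m / U - 1) := by
      have h8 : Real.log W0 ≤ (s * (M * m₀) + N * Real.log 2 + Real.log (Z g)) / s := by
        rw [le_div_iff₀ hs0]; linarith
      refine h8.trans ?_
      have h9 : Real.log (Z g) / s ≤ 1 / (s * m) * (Real.log U + Z g ^ m / U - 1) := by
        rw [show Real.log (Z g) / s = 1 / (s * m) * (m * Real.log (Z g)) by field_simp]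
        exact mul_le_mul_of_nonneg_left h6 (by positivity)
      calc (s * (M * m₀) + N * Real.log 2 + Real.log (Z g)) / s
          = M * m₀ + 1 / s * (N * Real.log 2) + Real.log (Z g) / s := by field_simp
        _ ≤ _ := by linarith
    linarith
  have hRint : Integrable (fun g => M * m₀ + (1 / s - 1) * (N * Real.log 2)
      + 1 / (s * m) * (Real.log U + Z g ^ m / U - 1)) P :=
    (integrable_const _).add ((((integrable_const _).add (hZint.div_const U)).sub
      (integrable_const _)).const_mul _)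
  have hLint : Integrable L P := by
    refine bdd_int ?_ (C := M * C) fun g => ?_
    · simp only [funext hL_eq]
      exact (Finset.measurable_sum _ fun σ _ => (measurable_const.add
        (Finset.measurable_sum _ fun a _ => W.smF.cont.measurable.comp
          ((measurable_lin σ).comp (measurable_pi_apply a)))).exp).log
    · exact abs_logMean_le (μ := isingOn (Fin N))
        (h := fun x : Fin N → ℝ => ∑ a, f ((∑ i, g a i * x i) / Real.sqrt N))
        (by have := W.smF.cont; fun_prop) fun x => by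
          refine (Finset.abs_sum_le_sum_abs _ _).trans ((Finset.sum_le_sum fun a _ =>
            (W.bdd _).1).trans ?_)
          simp
  have hint : ∫ g, L g ∂P
      ≤ M * m₀ + (1 / s - 1) * (N * Real.log 2) + 1 / (s * m) * Real.log U := by
    refine (integral_mono hLint hRint hpt).trans ?_
    have j1 : Integrable (fun g => Real.log U + Z g ^ m / U) P :=
      (integrable_const _).add (hZint.div_const U)
    have j2 : Integrable (fun g => Real.log U + Z g ^ m / U - 1) P := j1.sub (integrable_const _)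
    rw [integral_add (integrable_const _) (j2.const_mul _), integral_const_mul,
      integral_sub j1 (integrable_const _), integral_add (integrable_const _) (hZint.div_const U),
      integral_div]
    simp only [integral_const, probReal_univ, one_smul]
    have : (∫ g, Z g ^ m ∂P) / U ≤ 1 := (div_le_one hU).2 hZU
    have hsm : 0 ≤ 1 / (s * m) := by positivity
    nlinarith [mul_le_mul_of_nonneg_left this hsm]
  have hNr : (0 : ℝ) < N := Nat.cast_pos.2 hN
  have hlogU : Real.log U = M * d + N * Real.log A := by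
    simp only [U]
    rw [Real.log_mul (Real.exp_ne_zero _) (pow_ne_zero N hA.ne'), Real.log_exp, Real.log_pow]
  rw [hlogU] at hint
  change (∫ g, L g ∂P) / N ≤ _
  rw [div_le_iff₀ hNr]
  refine hint.trans (le_of_eq ?_)
  simp only [A, hd, hh]
  field_simp
  ring

lemma bracket_eq {X r T G K E m s ρ : ℝ} (e1 : r ^ 2 = X) (hρ0 : 0 ≤ ρ) (hm0 : 0 < m)
    (hs0 : 0 < s) (hG_def : G = 2 / Real.pi * X - T) :
    1 / (s * m) * (m * s * r * Real.sqrt ρ * Real.sqrt (2 / Real.pi)
        + (m * s * r * Real.sqrt ρ) ^ 2 / 2 * (1 - 2 / Real.pi)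
        + K * (m * s * r * Real.sqrt ρ) ^ 3
        + ρ * (-(m ^ 2 * s ^ 2 / 2 * (X - T)) + s ^ 3 * E))
      = r * Real.sqrt (2 / Real.pi) * Real.sqrt ρ - m * s * ρ / 2 * G
        + K * (m * s) ^ 2 * (X * r) * (ρ * Real.sqrt ρ) + ρ * s ^ 2 / m * E := by
  have e2 : Real.sqrt ρ ^ 2 = ρ := Real.sq_sqrt hρ0
  have e3 : (m * s * r * Real.sqrt ρ) ^ 2 = (m * s) ^ 2 * (X * ρ) := by
    rw [mul_pow, mul_pow (m * s), e1, e2]; ring
  have e4 : (m * s * r * Real.sqrt ρ) ^ 3 = (m * s) ^ 3 * (X * r) * (ρ * Real.sqrt ρ) := by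
    rw [pow_succ, e3]; ring
  rw [e3, e4, hG_def]
  field_simp
  ring

lemma final_algebra {X r T G K E μ η β α ρ m₀ p m s : ℝ}
    (hK : ∀ t ∈ Icc (0 : ℝ) 1, Real.log (∫ z, Real.exp (t * |z|) ∂(gaussianReal 0 1))
      ≤ t * Real.sqrt (2 / Real.pi) + t ^ 2 / 2 * (1 - 2 / Real.pi) + K * t ^ 3)
    (hX : 0 ≤ X) (hr : r = Real.sqrt X) (hG : 0 < G) (hG_def : G = 2 / Real.pi * X - T)
    (hK0 : 0 ≤ K) (hE : 0 ≤ E) (hμ : 0 < μ) (hμ1 : μ ≤ 1) (hμr : μ * r ≤ 1)
    (hμK : K * (X * r) * μ ≤ G / 8) (hη : η = μ * G / 32) (hb2 : 2 ≤ β) (hβ10 : β ^ 10 = α)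
    (hsq : Real.sqrt α = β ^ 5) (hmd : m = μ / β) (hsd : s = 1 / β ^ 4) (hρα : ρ ≤ α)
    (hρ2 : α / 2 ≤ ρ) (hρ0 : 0 ≤ ρ) (hρm : ρ * m₀ ≤ α * m₀ + |m₀|)
    (hp : p ≤ ρ * m₀ + (1 / s - 1) * Real.log 2 + 1 / (s * m) *
      (Real.log (∫ z, Real.exp (m * (s * r) * Real.sqrt ρ * |z|) ∂(gaussianReal 0 1))
        + ρ * (-(m ^ 2 * s ^ 2 / 2 * (X - T)) + s ^ 3 * E)))
    (hbig : (Real.log 2 + E / μ + |m₀| + 2 + Real.log 2) / (3 * η) ≤ β) :
    p + 1 + Real.log 2 ≤ α * m₀ + Real.sqrt α * (r * Real.sqrt (2 / Real.pi) - η) := by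
  have hβ1 : 1 ≤ β := by linarith only [hb2]
  have hβ0 : 0 < β := by linarith only [hb2]
  have hr0 : 0 ≤ r := hr ▸ Real.sqrt_nonneg X
  have e1 : r ^ 2 = X := hr ▸ Real.sq_sqrt hX
  have hη0 : 0 < η := by rw [hη]; positivity
  have hα0 : 0 ≤ α := by rw [← hβ10]; positivity
  have hm0 : 0 < m := by rw [hmd]; positivity
  have hs0 : 0 < s := by rw [hsd]; positivity
  have hms : m * s = μ / β ^ 5 := by rw [hmd, hsd]; field_simp
  have ht : m * s * r * Real.sqrt ρ ∈ Icc (0 : ℝ) 1 := by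
    refine ⟨by positivity, ?_⟩
    calc m * s * r * Real.sqrt ρ ≤ m * s * r * Real.sqrt α :=
          mul_le_mul_of_nonneg_left (Real.sqrt_le_sqrt hρα) (by positivity)
      _ = μ * r := by rw [hsq, hms]; field_simp
      _ ≤ 1 := hμr
  have hA := hK _ ht
  rw [← mul_assoc m s r] at hp
  have hp' : p ≤ ρ * m₀ + (1 / s - 1) * Real.log 2
      + (r * Real.sqrt (2 / Real.pi) * Real.sqrt ρ - m * s * ρ / 2 * G
        + K * (m * s) ^ 2 * (X * r) * (ρ * Real.sqrt ρ) + ρ * s ^ 2 / m * E) := by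
    rw [← bracket_eq e1 hρ0 hm0 hs0 hG_def]
    exact hp.trans (add_le_add le_rfl (mul_le_mul_of_nonneg_left (add_le_add hA le_rfl)
      (one_div_nonneg.2 (mul_pos hs0 hm0).le)))
  have hc : 0 ≤ r * Real.sqrt (2 / Real.pi) := mul_nonneg hr0 (Real.sqrt_nonneg _)
  have b1 : r * Real.sqrt (2 / Real.pi) * Real.sqrt ρ ≤ β ^ 5 * (r * Real.sqrt (2 / Real.pi)) := by
    rw [mul_comm (β ^ 5), ← hsq]
    exact mul_le_mul_of_nonneg_left (Real.sqrt_le_sqrt hρα) hc
  have b2 : μ * β ^ 5 / 4 * G ≤ m * s * ρ / 2 * G := by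
    refine mul_le_mul_of_nonneg_right ?_ hG.le
    rw [hms]
    calc μ * β ^ 5 / 4 = μ / β ^ 5 * (α / 2) / 2 := by rw [← hβ10]; field_simp; ring
      _ ≤ μ / β ^ 5 * ρ / 2 := div_le_div_of_nonneg_right
          (mul_le_mul_of_nonneg_left hρ2 (div_nonneg hμ.le (pow_nonneg hβ0.le 5))) two_pos.le
  have b3 : K * (m * s) ^ 2 * (X * r) * (ρ * Real.sqrt ρ) ≤ μ * β ^ 5 * (G / 8) := by
    calc K * (m * s) ^ 2 * (X * r) * (ρ * Real.sqrt ρ)
        ≤ K * (m * s) ^ 2 * (X * r) * (α * Real.sqrt α) :=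
          mul_le_mul_of_nonneg_left (mul_le_mul hρα (Real.sqrt_le_sqrt hρα) (Real.sqrt_nonneg _) hα0)
            (mul_nonneg (mul_nonneg hK0 (sq_nonneg _)) (mul_nonneg hX hr0))
      _ = μ * β ^ 5 * (K * (X * r) * μ) := by rw [hms, hsq, ← hβ10]; field_simp
      _ ≤ _ := mul_le_mul_of_nonneg_left hμK (mul_nonneg hμ.le (pow_nonneg hβ0.le 5))
  have b4 : ρ * s ^ 2 / m * E ≤ β ^ 4 * (E / μ) := by
    calc ρ * s ^ 2 / m * E ≤ α * s ^ 2 / m * E := mul_le_mul_of_nonneg_right
          (div_le_div_of_nonneg_right (mul_le_mul_of_nonneg_right hρα (sq_nonneg _)) hm0.le) hE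
      _ = β ^ 3 * (E / μ) := by rw [hmd, hsd, ← hβ10]; field_simp
      _ ≤ _ := mul_le_mul_of_nonneg_right (pow_le_pow_right₀ hβ1 (by norm_num))
          (div_nonneg hE hμ.le)
  have hinv : 1 / s = β ^ 4 := by rw [hsd, one_div_one_div]
  rw [hinv] at hp'
  have hl2 : 0 ≤ Real.log 2 := Real.log_nonneg (by norm_num)
  rw [div_le_iff₀ (mul_pos three_pos hη0)] at hbig
  have hb4 : (1 : ℝ) ≤ β ^ 4 := one_le_pow₀ hβ1
  have hbig' : β ^ 4 * (Real.log 2 + E / μ + |m₀| + 2 + Real.log 2) ≤ β ^ 5 * (3 * η) := by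
    calc _ ≤ β ^ 4 * (β * (3 * η)) := mul_le_mul_of_nonneg_left hbig (pow_nonneg hβ0.le 4)
      _ = _ := by ring
  have hsplit : |m₀| + 1 + Real.log 2 ≤ β ^ 4 * (|m₀| + 2 + Real.log 2) := by
    calc |m₀| + 1 + Real.log 2 ≤ 1 * (|m₀| + 2 + Real.log 2) := by linarith only []
      _ ≤ _ := mul_le_mul_of_nonneg_right hb4
          (add_nonneg (add_nonneg (abs_nonneg _) two_pos.le) hl2)
  have e5 : β ^ 5 * (3 * η) = μ * β ^ 5 / 4 * G - μ * β ^ 5 * (G / 8) - β ^ 5 * η := by
    rw [hη]; ring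
  rw [e5] at hbig'
  rw [hsq]
  linarith only [hp', hsplit, b1, b2, b3, b4, hρm, hl2, hbig']

/-- The high-density upper bound, strictly below the replica-symmetric asymptote. -/
lemma upper (W : Pot f f₁ f₂ f₃ C a) (hX : 0 < ∫ z, f₁ z ^ 2 ∂(gaussianReal 0 1)) : ∃ η, 0 < η ∧
    ∀ᶠ α in atTop, ∀ᶠ N : ℕ in atTop, pressure α f N (isingMeasure N) + 1 + Real.log 2
      ≤ α * (∫ z, f z ∂(gaussianReal 0 1))
        + Real.sqrt α * (Real.sqrt (∫ z, f₁ z ^ 2 ∂(gaussianReal 0 1)) * Real.sqrt (2 / Real.pi) - η) := by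
  set X := ∫ z, f₁ z ^ 2 ∂(gaussianReal 0 1)
  set m₀ := ∫ z, f z ∂(gaussianReal 0 1)
  set T := ∫ z, (f z - m₀) ^ 2 ∂(gaussianReal 0 1)
  have hfi : Integrable f (gaussianReal 0 1) := bdd_int W.smF.cont.measurable fun x => (W.bdd x).1
  have hT : T ≤ X / 2 := by
    have hm₀ : |m₀| ≤ C := by
      simpa using norm_integral_le_of_norm_le_const (μ := (gaussianReal 0 1)) (f := f) (C := C)
        (ae_of_all _ fun x => (W.bdd x).1)
    refine variance_le_half (f := fun z => f z - m₀) (f₁ := f₁) (f₂ := f₂) (f₃ := f₃)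
      ⟨fun x => (W.d0 x).sub_const m₀, W.d1, 2 * C, fun x => ⟨(abs_sub _ _).trans
        (by linarith [(W.bdd x).1]), by linarith [(W.bdd x).2.1, W.C_nonneg],
        by linarith [(W.bdd x).2.2.1, W.C_nonneg]⟩⟩ W.smF1 W.odd1 ?_
    rw [integral_sub hfi (integrable_const _)]; simp [m₀]
  set G := 2 / Real.pi * X - T with hG_def
  have hG : 0 < G := by
    have : 1 / 2 < 2 / Real.pi := by
      rw [div_lt_div_iff₀ two_pos Real.pi_pos]; linarith [Real.pi_lt_four]
    have := mul_lt_mul_of_pos_right this hX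
    linarith
  obtain ⟨K, hK0, hK⟩ := log_exp_abs
  set κ := kap (2 * C) X
  have hκ : 0 ≤ κ := kap_nonneg (by linarith [W.C_nonneg]) X
  set E := 200 * κ + X * (X + 50 * κ)
  have hE : 0 ≤ E := by positivity
  set r := Real.sqrt X
  have hr : 0 < r := Real.sqrt_pos.2 hX
  set μ := min (min 1 (1 / r)) (G / (8 * (K * (X * r) + 1)))
  have hμ : 0 < μ := lt_min (lt_min one_pos (by positivity)) (by positivity)
  have hμ1 : μ ≤ 1 := (min_le_left _ _).trans (min_le_left _ _)
  have hμr : μ * r ≤ 1 := by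
    have : μ ≤ 1 / r := (min_le_left _ _).trans (min_le_right _ _)
    calc μ * r ≤ 1 / r * r := mul_le_mul_of_nonneg_right this hr.le
      _ = 1 := by field_simp
  have hμK : K * (X * r) * μ ≤ G / 8 := by
    have h1 : μ ≤ G / (8 * (K * (X * r) + 1)) := min_le_right _ _
    rw [le_div_iff₀ (by positivity)] at h1
    nlinarith
  set η := μ * G / 32
  have hη : 0 < η := by positivity
  refine ⟨η, hη, ?_⟩
  have hlim : Tendsto (fun α : ℝ => α ^ (1 / 10 : ℝ)) atTop atTop :=
    tendsto_rpow_atTop (by norm_num)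
  filter_upwards [eventually_ge_atTop (1 : ℝ), hlim.eventually_ge_atTop 2,
    hlim.eventually_ge_atTop (100 * κ + 1),
    hlim.eventually_ge_atTop ((Real.log 2 + E / μ + |m₀| + 2 + Real.log 2) / (3 * η))]
    with α hα hb2 hbκ hbig
  set β := α ^ (1 / 10 : ℝ) with hβ
  have hβ1 : 1 ≤ β := by linarith
  have hβ10 : β ^ 10 = α := by
    rw [hβ, ← Real.rpow_natCast, ← Real.rpow_mul (by linarith)]; norm_num
  have hsq : Real.sqrt α = β ^ 5 := by
    rw [← hβ10, show β ^ 10 = (β ^ 5) ^ 2 by ring, Real.sqrt_sq (by positivity)]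
  set m := μ / β
  set s := 1 / β ^ 4
  have hm0 : 0 < m := by positivity
  have hm1 : m < 1 := by rw [div_lt_one (by linarith)]; linarith
  have hs0 : 0 < s := by positivity
  have hs1 : s ≤ 1 := by rw [div_le_one (by positivity)]; exact one_le_pow₀ hβ1
  have hsmall : 100 * s ^ 3 * κ ≤ 1 := by
    have h1 : s ^ 3 * β ≤ 1 := by
      simp only [s]
      rw [div_pow, one_pow, ← pow_mul, div_mul_eq_mul_div, one_mul, div_le_one (by positivity)]
      nth_rewrite 1 [← pow_one β]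
      exact pow_le_pow_right₀ hβ1 (by norm_num)
    nlinarith [mul_le_mul_of_nonneg_left hbκ (by positivity : (0 : ℝ) ≤ s ^ 3),
      pow_pos hs0 3]
  filter_upwards [eventually_ge_atTop 2] with N hN
  have hN0 : 0 < N := by omega
  have hp := pressure_le (α := α) W hN0 hm0 hm1 hs0 hs1 hsmall
  set ρ := (⌊α * N⌋₊ : ℝ) / N
  have hNr : (0 : ℝ) < N := Nat.cast_pos.2 hN0
  have hρα : ρ ≤ α := by
    rw [div_le_iff₀ hNr]; exact Nat.floor_le (by positivity)
  have hρ1 : α - 1 / N ≤ ρ := by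
    have := Nat.lt_floor_add_one (α * (N : ℝ))
    rw [le_div_iff₀ hNr, sub_mul, div_mul_cancel₀ _ hNr.ne']
    linarith
  have hN2 : 1 / (N : ℝ) ≤ 1 / 2 := by
    have : (2 : ℝ) ≤ N := by exact_mod_cast hN
    gcongr
  have hρ2 : α / 2 ≤ ρ := by linarith
  have hρ0 : 0 ≤ ρ := by linarith
  have hρm : ρ * m₀ ≤ α * m₀ + |m₀| := by
    nlinarith [abs_nonneg m₀, le_abs_self m₀, neg_abs_le m₀,
      mul_nonneg (sub_nonneg.2 hρα) (by linarith [neg_abs_le m₀] : 0 ≤ m₀ + |m₀|),
      mul_le_mul_of_nonneg_right (by linarith : α - ρ ≤ 1) (abs_nonneg m₀)]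
  exact final_algebra hK hX.le rfl hG hG_def hK0 hE hμ hμ1 hμr hμK rfl hb2 hβ10 hsq rfl rfl hρα
    hρ2 hρ0 hρm hp hbig

/-- Replica symmetry fails at high density. -/
theorem rs_fails (W : Pot f f₁ f₂ f₃ C a) (hne : ∃ x, f₁ x ≠ 0) :
    ∀ᶠ α in atTop, ∃ ε > 0, ∀ᶠ N : ℕ in atTop, ∀ q ∈ Ico (0 : ℝ) 1,
      pressure α f N (isingMeasure N) + ε ≤ rsValue α f f₁ q := by
  obtain ⟨x₀, hx₀⟩ := hne
  have hX : 0 < ∫ z, f₁ z ^ 2 ∂(gaussianReal 0 1) := by
    have hi : Integrable (fun z => f₁ z ^ 2) (gaussianReal 0 1) :=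
      bdd_int (W.smF.cont1.measurable.pow_const 2) (C := C ^ 2) fun z => by
        rw [abs_pow]; exact pow_le_pow_left₀ (abs_nonneg _) (W.bdd z).2.1 2
    have hop : (gaussianReal 0 1).IsOpenPosMeasure :=
      (gaussianReal_absolutelyContinuous' 0 one_ne_zero).isOpenPosMeasure
    exact integral_pos_of_integrable_nonneg_nonzero (x := x₀) (W.smF.cont1.pow 2) hi
      (fun _ => sq_nonneg _) (pow_ne_zero 2 hx₀)
  obtain ⟨η, hη, hup⟩ := upper W hX
  filter_upwards [hup, rs_lower W hX hη] with α hu hl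
  refine ⟨1, one_pos, ?_⟩
  filter_upwards [hu] with N hN q hq
  linarith [hl q hq]

end Vale.Agent.P157.Rsb
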