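import Vale.Agent.P157.Moments
import Mathlib.Analysis.SpecialFunctions.ImproperIntegrals
import Mathlib.MeasureTheory.Integral.IntegralEqImproper

/-!
Gaussian integration by parts on the line for bounded functions.
-/

open MeasureTheory ProbabilityTheory

namespace Vale.Agent.P157.Rsb

lemma pdf_deriv (x : ℝ) :
    HasDerivAt (gaussianPDFReal 0 1) (-x * gaussianPDFReal 0 1 x) x := by
  have h : gaussianPDFReal 0 1
      = fun y => (Real.sqrt (2 * Real.pi))⁻¹ * Real.exp (-(y ^ 2) / 2) := by
    funext y; simp [gaussianPDFReal]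
  rw [h]
  convert! (((hasDerivAt_pow 2 x).neg.div_const 2).exp).const_mul
    ((Real.sqrt (2 * Real.pi))⁻¹) using 1
  simp
  ring

lemma integrable_pdf_mul {f : ℝ → ℝ} (hf : Integrable f (gaussianReal 0 1)) :
    Integrable fun x => gaussianPDFReal 0 1 x * f x := by
  rw [gaussianReal_of_var_ne_zero _ one_ne_zero,
    integrable_withDensity_iff (measurable_gaussianPDF 0 1) (ae_of_all _ fun x => by
      simp [gaussianPDF])] at hf
  refine hf.congr (ae_of_all _ fun x => ?_)
  simp [gaussianPDF, ENNReal.toReal_ofReal (gaussianPDFReal_nonneg 0 1 x), mul_comm]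

lemma bdd_int {α : Type*} [MeasurableSpace α] {m : Measure α} [IsFiniteMeasure m] {F : α → ℝ}
    (hm : Measurable F) {C : ℝ} (hb : ∀ x, |F x| ≤ C) : Integrable F m :=
  Integrable.of_bound hm.aestronglyMeasurable C (ae_of_all _ hb)

lemma bdd_mul_id {F : ℝ → ℝ} (hm : Measurable F) {C : ℝ} (hb : ∀ x, |F x| ≤ C) :
    Integrable (fun x => x * F x) (gaussianReal 0 1) := by
  have h1 : Integrable (fun x : ℝ => x) (gaussianReal 0 1) := by simpa using integrable_pow_gauss 1
  exact h1.mul_bdd hm.aestronglyMeasurable (ae_of_all _ hb)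

theorem stein {F F' : ℝ → ℝ} (hF : ∀ x, HasDerivAt F (F' x) x) {C : ℝ}
    (hb : ∀ x, |F x| ≤ C) (hb' : ∀ x, |F' x| ≤ C) :
    ∫ x, x * F x ∂(gaussianReal 0 1) = ∫ x, F' x ∂(gaussianReal 0 1) := by
  have hFm : Measurable F :=
    (continuous_iff_continuousAt.2 fun x => (hF x).continuousAt).measurable
  have hF'm : Measurable F' := by
    rw [show F' = deriv F from funext fun x => (hF x).deriv.symm]
    exact measurable_deriv F
  have hxF := integrable_pdf_mul (bdd_mul_id hFm hb)
  have hF'i := integrable_pdf_mul (bdd_int (m := (gaussianReal 0 1)) hF'm hb')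
  have hFi := integrable_pdf_mul (bdd_int (m := (gaussianReal 0 1)) hFm hb)
  have h := integral_mul_deriv_eq_deriv_mul_of_integrable (u := F) (u' := F')
    (v := gaussianPDFReal 0 1) (v' := fun x => -x * gaussianPDFReal 0 1 x)
    (fun x _ => hF x) (fun x _ => pdf_deriv x)
    (hxF.neg.congr (ae_of_all _ fun x => by simp only [Pi.neg_apply, Pi.mul_apply]; ring))
    (hF'i.congr (ae_of_all _ fun x => by simp only [Pi.mul_apply]; ring))
    (hFi.congr (ae_of_all _ fun x => by simp only [Pi.mul_apply]; ring))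
  rw [integral_gaussianReal_eq_integral_smul one_ne_zero,
    integral_gaussianReal_eq_integral_smul one_ne_zero]
  simp only [smul_eq_mul]
  calc ∫ x, gaussianPDFReal 0 1 x * (x * F x)
      = -∫ x, F x * (-x * gaussianPDFReal 0 1 x) := by
        rw [← integral_neg]; congr 1; funext x; ring
    _ = ∫ x, gaussianPDFReal 0 1 x * F' x := by
        rw [h, neg_neg]; congr 1; funext x; ring

lemma gauss_abs : ∫ z, |z| ∂(gaussianReal 0 1) = Real.sqrt (2 / Real.pi) := by
  rw [integral_gaussianReal_eq_integral_smul one_ne_zero]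
  have e : ∀ x : ℝ, gaussianPDFReal 0 1 x • |x|
      = (Real.sqrt (2 * Real.pi))⁻¹ * (|x| * Real.exp (-(1/2) * |x| ^ 2)) := fun x => by
    simp [gaussianPDFReal, sq_abs]; ring_nf
  simp_rw [e]
  rw [integral_const_mul, integral_comp_abs (f := fun r => r * Real.exp (-(1/2) * r ^ 2))]
  have h : ∫ r in Set.Ioi (0 : ℝ), r * Real.exp (-(1/2) * r ^ 2) = 1 := by
    have := integral_mul_cexp_neg_mul_sq (b := (1/2 : ℂ)) (by norm_num)
    apply Complex.ofReal_injective
    rw [← integral_complex_ofReal]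
    norm_num at this ⊢
    convert this using 3
  rw [h, Real.sqrt_mul (by norm_num : (0:ℝ) ≤ 2), Real.sqrt_div (by norm_num : (0:ℝ) ≤ 2)]
  have h2 := Real.mul_self_sqrt (show (0:ℝ) ≤ 2 by norm_num)
  field_simp
  linarith

end Vale.Agent.P157.Rsb
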