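import Vale.Agent.P157.Rsb.Stein
import Mathlib.Analysis.Calculus.ParametricIntegral
import Mathlib.Analysis.Calculus.Deriv.MeanValue
import Mathlib.Analysis.SpecialFunctions.Sqrt

/-!
The Gaussian heat flow along `t ↦ h_t (√t z)`, the Poincaré inequality for odd functions, and
the bounds on the covariance function of an even potential.
-/

open MeasureTheory ProbabilityTheory Set Filter Topology

namespace Vale.Agent.P157.Rsb

/-- `h` with two derivatives, all bounded. -/
structure Sm (h h₁ h₂ : ℝ → ℝ) : Prop where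
  d0 : ∀ x, HasDerivAt h (h₁ x) x
  d1 : ∀ x, HasDerivAt h₁ (h₂ x) x
  bdd : ∃ C, ∀ x, |h x| ≤ C ∧ |h₁ x| ≤ C ∧ |h₂ x| ≤ C

variable {h h₁ h₂ : ℝ → ℝ}

lemma Sm.cont (S : Sm h h₁ h₂) : Continuous h :=
  continuous_iff_continuousAt.2 fun x => (S.d0 x).continuousAt

lemma Sm.cont1 (S : Sm h h₁ h₂) : Continuous h₁ :=
  continuous_iff_continuousAt.2 fun x => (S.d1 x).continuousAt

lemma Sm.meas2 (S : Sm h h₁ h₂) : Measurable h₂ := by
  rw [show h₂ = deriv h₁ from funext fun x => (S.d1 x).deriv.symm]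
  exact measurable_deriv _

/-- The heat flow: average of `h` over a field of variance `1 - t` around `y`. -/
noncomputable def hs (h : ℝ → ℝ) (t y : ℝ) : ℝ := ∫ w, h (y + Real.sqrt (1 - t) * w) ∂(gaussianReal 0 1)

lemma abs_hs_le {C : ℝ} (hb : ∀ x, |h x| ≤ C) (t y : ℝ) : |hs h t y| ≤ C := by
  simpa [hs] using norm_integral_le_of_norm_le_const (μ := (gaussianReal 0 1))
    (f := fun w => h (y + Real.sqrt (1 - t) * w)) (C := C) (ae_of_all _ fun w => hb _)

lemma hs_one (h : ℝ → ℝ) (y : ℝ) : hs h 1 y = h y := by simp [hs]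

lemma hs_zero (h : ℝ → ℝ) (y : ℝ) : hs h 0 y = ∫ w, h (y + w) ∂(gaussianReal 0 1) := by simp [hs]

lemma continuous_hs (hc : Continuous h) {C : ℝ} (hb : ∀ x, |h x| ≤ C) :
    Continuous fun p : ℝ × ℝ => hs h p.1 p.2 :=
  continuous_of_dominated (bound := fun _ => C)
    (fun p => ((hc.comp (by fun_prop : Continuous fun w : ℝ =>
      p.2 + Real.sqrt (1 - p.1) * w))).aestronglyMeasurable)
    (fun p => ae_of_all _ fun w => hb _) (integrable_const _)
    (ae_of_all _ fun w => hc.comp (by fun_prop))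

lemma measurable_hs (hm : Measurable h) (t : ℝ) : Measurable (hs h t) :=
  (StronglyMeasurable.integral_prod_right
    (f := fun y w => h (y + Real.sqrt (1 - t) * w))
    (by exact (hm.comp (by fun_prop)).stronglyMeasurable)).measurable

lemma int_hs (hm : Measurable h) {C : ℝ} (hb : ∀ x, |h x| ≤ C) (t a : ℝ) :
    Integrable (fun z => hs h t (a * z)) (gaussianReal 0 1) :=
  bdd_int ((measurable_hs hm t).comp (by fun_prop)) fun _ => abs_hs_le hb _ _

lemma deriv_y (d0 : ∀ x, HasDerivAt h (h₁ x) x) (hm1 : Measurable h₁) {C : ℝ}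
    (hb : ∀ x, |h x| ≤ C) (hb1 : ∀ x, |h₁ x| ≤ C) (t y : ℝ) :
    HasDerivAt (hs h t) (hs h₁ t y) y := by
  have hc : Continuous h := continuous_iff_continuousAt.2 fun x => (d0 x).continuousAt
  refine (hasDerivAt_integral_of_dominated_loc_of_deriv_le (μ := (gaussianReal 0 1)) (bound := fun _ => C)
    (F := fun y w => h (y + Real.sqrt (1 - t) * w))
    (F' := fun y w => h₁ (y + Real.sqrt (1 - t) * w)) (s := univ) univ_mem
    (Eventually.of_forall fun y => (hc.comp (by fun_prop)).aestronglyMeasurable)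
    (bdd_int (by fun_prop) fun _ => hb _) (hm1.comp (by fun_prop)).aestronglyMeasurable
    (ae_of_all _ fun w y _ => hb1 _) (integrable_const _)
    (ae_of_all _ fun w y _ => ?_)).2
  exact (d0 _).comp_add_const y (Real.sqrt (1 - t) * w)

lemma Sm.deriv_y (S : Sm h h₁ h₂) (t y : ℝ) : HasDerivAt (hs h t) (hs h₁ t y) y := by
  obtain ⟨C, hC⟩ := S.bdd
  exact Rsb.deriv_y S.d0 S.cont1.measurable (fun x => (hC x).1) (fun x => (hC x).2.1) t y

lemma Sm.deriv_y1 (S : Sm h h₁ h₂) (t y : ℝ) : HasDerivAt (hs h₁ t) (hs h₂ t y) y := by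
  obtain ⟨C, hC⟩ := S.bdd
  exact Rsb.deriv_y S.d1 S.meas2 (fun x => (hC x).2.1) (fun x => (hC x).2.2) t y

/-- The derivative in `t` along `t ↦ √t z`. -/
lemma Sm.deriv_t (S : Sm h h₁ h₂) {t : ℝ} (ht : t ∈ Ioo (0 : ℝ) 1) (z : ℝ) :
    HasDerivAt (fun u => hs h u (Real.sqrt u * z))
      (z / (2 * Real.sqrt t) * hs h₁ t (Real.sqrt t * z) + -hs h₂ t (Real.sqrt t * z) / 2) t := by
  obtain ⟨C, hC⟩ := S.bdd
  have hC0 : 0 ≤ C := (abs_nonneg _).trans (hC 0).1
  have hc1 := S.cont1
  have hc := S.cont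
  set a := t / 2
  set b := (1 - t) / 2
  have ha : 0 < a := by have := ht.1; simp only [a]; linarith
  have hb : 0 < b := by have := ht.2; simp only [b]; linarith
  have hnb : Ioo a (1 - b) ∈ 𝓝 t :=
    Ioo_mem_nhds (by simp only [a]; linarith [ht.1]) (by simp only [b]; linarith [ht.2])
  have key := (hasDerivAt_integral_of_dominated_loc_of_deriv_le (μ := (gaussianReal 0 1))
    (bound := fun w => C * (|z| / (2 * Real.sqrt a)) + C / (2 * Real.sqrt b) * |w|)
    (F := fun u w => h (Real.sqrt u * z + Real.sqrt (1 - u) * w))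
    (F' := fun u w => h₁ (Real.sqrt u * z + Real.sqrt (1 - u) * w)
      * (1 / (2 * Real.sqrt u) * z + -1 / (2 * Real.sqrt (1 - u)) * w)) hnb
    (Eventually.of_forall fun u => (hc.comp (by fun_prop)).aestronglyMeasurable)
    (bdd_int (by fun_prop) fun _ => (hC _).1)
    (Measurable.aestronglyMeasurable (by fun_prop))
    (ae_of_all _ fun w u hu => ?_) ?_ (ae_of_all _ fun w u hu => ?_)).2
  · refine key.congr_deriv ?_
    set y := Real.sqrt t * z
    set r := Real.sqrt (1 - t)
    have hr : 0 < r := Real.sqrt_pos.2 (by linarith [ht.2])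
    have hr1 : r ≤ 1 := Real.sqrt_le_one.2 (by linarith [ht.1])
    have hst := stein (F := fun w => h₁ (y + r * w)) (F' := fun w => h₂ (y + r * w) * r)
      (fun w => (S.d1 _).comp w (by simpa using ((hasDerivAt_id w).const_mul r).const_add y))
      (C := C) (fun w => (hC _).2.1) (fun w => by
        rw [abs_mul, abs_of_pos hr]
        exact (mul_le_of_le_one_right (abs_nonneg _) hr1).trans (hC _).2.2)
    have i1 : Integrable (fun w => z / (2 * Real.sqrt t) * h₁ (y + r * w)) (gaussianReal 0 1) :=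
      (bdd_int (C := C) (by fun_prop) fun w => (hC _).2.1).const_mul _
    have i2 : Integrable (fun w => -1 / (2 * r) * (w * h₁ (y + r * w))) (gaussianReal 0 1) :=
      (bdd_mul_id (C := C) (by fun_prop) fun w => (hC _).2.1).const_mul _
    rw [show (fun w => h₁ (y + r * w) * (1 / (2 * Real.sqrt t) * z + -1 / (2 * r) * w))
        = fun w => z / (2 * Real.sqrt t) * h₁ (y + r * w) + -1 / (2 * r) * (w * h₁ (y + r * w))
        from funext fun w => by ring, integral_add i1 i2, integral_const_mul, integral_const_mul,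
      hst, integral_mul_const]
    simp only [hs]
    field_simp
    ring
  · rw [Real.norm_eq_abs, abs_mul]
    have h1 : |1 / (2 * Real.sqrt u) * z + -1 / (2 * Real.sqrt (1 - u)) * w|
        ≤ |z| / (2 * Real.sqrt a) + |w| / (2 * Real.sqrt b) := by
      refine (abs_add_le _ _).trans (add_le_add ?_ ?_)
      · rw [abs_mul, abs_of_nonneg (by positivity), div_mul_eq_mul_div, one_mul]
        gcongr
        exact hu.1.le
      · rw [abs_mul, abs_div, abs_neg, abs_one, abs_of_nonneg (by positivity),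
          div_mul_eq_mul_div, one_mul]
        gcongr
        linarith [hu.2]
    calc _ ≤ C * (|z| / (2 * Real.sqrt a) + |w| / (2 * Real.sqrt b)) :=
          mul_le_mul (hC _).2.1 h1 (abs_nonneg _) hC0
      _ = _ := by ring
  · exact (integrable_const _).add
      (((integrable_abs_pow_gauss 1).congr (ae_of_all _ fun w => by simp)).const_mul _)
  · have hu0 : u ≠ 0 := by linarith [hu.1]
    have hu1 : (1 : ℝ) - u ≠ 0 := by linarith [hu.2]
    refine (S.d0 _).comp u ?_
    exact ((Real.hasDerivAt_sqrt hu0).mul_const z).add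
      ((((hasDerivAt_id u).const_sub 1).sqrt hu1).mul_const w)

/-- Differentiating an outer Gaussian average along `t ↦ √t z`. -/
lemma outer_deriv {A P P₁ Q : ℝ → ℝ → ℝ} {t C : ℝ} (ht : t ∈ Ioo (0 : ℝ) 1)
    (hA : ∀ u, Measurable (A u)) (hP : Measurable (P t)) (hQ : Measurable (Q t))
    (hAd : ∀ u ∈ Ioo (0 : ℝ) 1, ∀ z, HasDerivAt (fun v => A v (Real.sqrt v * z))
      (z / (2 * Real.sqrt u) * P u (Real.sqrt u * z) + Q u (Real.sqrt u * z)) u)
    (hPd : ∀ y, HasDerivAt (P t) (P₁ t y) y)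
    (hb : ∀ u y, |A u y| ≤ C ∧ |P u y| ≤ C ∧ |P₁ u y| ≤ C ∧ |Q u y| ≤ C) :
    HasDerivAt (fun u => ∫ z, A u (Real.sqrt u * z) ∂(gaussianReal 0 1))
      (∫ z, P₁ t (Real.sqrt t * z) / 2 + Q t (Real.sqrt t * z) ∂(gaussianReal 0 1)) t := by
  have hC0 : 0 ≤ C := (abs_nonneg _).trans (hb 0 0).1
  set a := t / 2
  have ha : 0 < a := by have := ht.1; simp only [a]; linarith
  have hnb : Ioo a 1 ∈ 𝓝 t := Ioo_mem_nhds (by simp only [a]; linarith [ht.1]) ht.2
  have key := (hasDerivAt_integral_of_dominated_loc_of_deriv_le (μ := (gaussianReal 0 1))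
    (bound := fun z => C / (2 * Real.sqrt a) * |z| + C)
    (F := fun u z => A u (Real.sqrt u * z))
    (F' := fun u z => z / (2 * Real.sqrt u) * P u (Real.sqrt u * z) + Q u (Real.sqrt u * z)) hnb
    (Eventually.of_forall fun u => ((hA u).comp (by fun_prop)).aestronglyMeasurable)
    (bdd_int ((hA t).comp (by fun_prop)) fun _ => (hb _ _).1)
    ((((measurable_id.div_const _).mul (hP.comp (by fun_prop))).add
      (hQ.comp (by fun_prop))).aestronglyMeasurable)
    (ae_of_all _ fun z u hu => ?_) ?_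
    (ae_of_all _ fun z u hu => hAd u ⟨by linarith [hu.1], hu.2⟩ z)).2
  · refine key.congr_deriv ?_
    have hs : 0 < Real.sqrt t := Real.sqrt_pos.2 ht.1
    have hP1m : Measurable (P₁ t) := by
      rw [show P₁ t = deriv (P t) from funext fun x => (hPd x).deriv.symm]
      exact measurable_deriv _
    have hst := stein (F := fun z => P t (Real.sqrt t * z))
      (F' := fun z => P₁ t (Real.sqrt t * z) * Real.sqrt t)
      (fun z => (hPd _).comp z (by simpa using (hasDerivAt_id z).const_mul (Real.sqrt t)))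
      (C := C) (fun z => (hb _ _).2.1) (fun z => by
        rw [abs_mul, abs_of_pos hs]
        exact (mul_le_of_le_one_right (abs_nonneg _) (Real.sqrt_le_one.2 ht.2.le)).trans
          (hb _ _).2.2.1)
    have i1 : Integrable (fun z => 1 / (2 * Real.sqrt t) * (z * P t (Real.sqrt t * z))) (gaussianReal 0 1) :=
      (bdd_mul_id (hP.comp (by fun_prop)) fun z => (hb _ _).2.1).const_mul _
    have i2 : Integrable (fun z => Q t (Real.sqrt t * z)) (gaussianReal 0 1) :=
      bdd_int (hQ.comp (by fun_prop)) fun z => (hb _ _).2.2.2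
    have i3 : Integrable (fun z => P₁ t (Real.sqrt t * z) / 2) (gaussianReal 0 1) :=
      (bdd_int (hP1m.comp (by fun_prop)) fun z => (hb _ _).2.2.1).div_const _
    rw [show (fun z => z / (2 * Real.sqrt t) * P t (Real.sqrt t * z) + Q t (Real.sqrt t * z))
        = fun z => 1 / (2 * Real.sqrt t) * (z * P t (Real.sqrt t * z)) + Q t (Real.sqrt t * z)
        from funext fun z => by ring, integral_add i1 i2, integral_add i3 i2, integral_const_mul,
      hst, integral_mul_const, integral_div]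
    field_simp
  · rw [Real.norm_eq_abs]
    refine (abs_add_le _ _).trans (add_le_add ?_ (hb _ _).2.2.2)
    rw [abs_mul, abs_div, abs_of_nonneg (by positivity : (0 : ℝ) ≤ 2 * Real.sqrt u)]
    calc |z| / (2 * Real.sqrt u) * |P u (Real.sqrt u * z)| ≤ |z| / (2 * Real.sqrt a) * C := by
          refine mul_le_mul ?_ (hb _ _).2.1 (abs_nonneg _) (by positivity)
          gcongr
          exact hu.1.le
      _ = _ := by ring
  · exact (((integrable_abs_pow_gauss 1).congr (ae_of_all _ fun w => by simp)).const_mul _).add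
      (integrable_const _)

lemma continuous_outer {A : ℝ → ℝ → ℝ} (hc : Continuous fun p : ℝ × ℝ => A p.1 p.2) {C : ℝ}
    (hb : ∀ u y, |A u y| ≤ C) : Continuous fun u => ∫ z, A u (Real.sqrt u * z) ∂(gaussianReal 0 1) :=
  continuous_of_dominated (bound := fun _ => C)
    (fun u => (hc.comp (by fun_prop : Continuous fun z : ℝ =>
      ((u, Real.sqrt u * z) : ℝ × ℝ))).aestronglyMeasurable)
    (fun u => ae_of_all _ fun z => hb _ _) (integrable_const _)
    (ae_of_all _ fun z => hc.comp (by fun_prop : Continuous fun u : ℝ =>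
      ((u, Real.sqrt u * z) : ℝ × ℝ)))

/-- The mean square of the flow at time `t`. -/
noncomputable def sqMean (h : ℝ → ℝ) (t : ℝ) : ℝ := ∫ z, hs h t (Real.sqrt t * z) ^ 2 ∂(gaussianReal 0 1)

lemma sqMean_nonneg (h : ℝ → ℝ) (t : ℝ) : 0 ≤ sqMean h t := integral_nonneg fun _ => sq_nonneg _

lemma sqMean_one (h : ℝ → ℝ) : sqMean h 1 = ∫ z, h z ^ 2 ∂(gaussianReal 0 1) := by simp [sqMean, hs_one]

lemma sqMean_zero (h : ℝ → ℝ) : sqMean h 0 = (∫ w, h w ∂(gaussianReal 0 1)) ^ 2 := by
  simp [sqMean, hs_zero]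

lemma continuous_sqMean (hc : Continuous h) {C : ℝ} (hb : ∀ x, |h x| ≤ C) :
    Continuous (sqMean h) :=
  continuous_outer (A := fun u y => hs h u y ^ 2) ((continuous_hs hc hb).pow 2) (C := C ^ 2)
    fun u y => by rw [abs_pow]; exact pow_le_pow_left₀ (abs_nonneg _) (abs_hs_le hb _ _) 2

lemma Sm.continuous_sqMean (S : Sm h h₁ h₂) : Continuous (sqMean h) := by
  obtain ⟨C, hC⟩ := S.bdd
  exact Rsb.continuous_sqMean S.cont fun x => (hC x).1

lemma Sm.deriv_sqMean (S : Sm h h₁ h₂) {t : ℝ} (ht : t ∈ Ioo (0 : ℝ) 1) :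
    HasDerivAt (sqMean h) (sqMean h₁ t) t := by
  obtain ⟨C, hC⟩ := S.bdd
  have hC0 : 0 ≤ C := (abs_nonneg _).trans (hC 0).1
  have b0 := fun u y => abs_hs_le (h := h) (fun x => (hC x).1) u y
  have b1 := fun u y => abs_hs_le (h := h₁) (fun x => (hC x).2.1) u y
  have b2 := fun u y => abs_hs_le (h := h₂) (fun x => (hC x).2.2) u y
  have m0 := fun u => measurable_hs S.cont.measurable u
  have m1 := fun u => measurable_hs S.cont1.measurable u
  have m2 := fun u => measurable_hs S.meas2 u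
  have key := outer_deriv (A := fun u y => hs h u y ^ 2)
    (P := fun u y => 2 * (hs h u y * hs h₁ u y))
    (P₁ := fun u y => 2 * (hs h₁ u y * hs h₁ u y + hs h u y * hs h₂ u y))
    (Q := fun u y => -(hs h u y * hs h₂ u y)) (C := 4 * C ^ 2) ht
    (fun u => (m0 u).pow_const 2) (((m0 t).mul (m1 t)).const_mul 2) (((m0 t).mul (m2 t)).neg)
    (fun u hu z => by
      refine (((S.deriv_t hu z).pow 2).congr_deriv ?_)
      simp
      ring)
    (fun y => ((S.deriv_y t y).mul (S.deriv_y1 t y)).const_mul 2) ?_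
  · refine key.congr_deriv (integral_congr_ae (ae_of_all _ fun z => ?_))
    dsimp only
    ring
  · intro u y
    have h00 := mul_le_mul (b0 u y) (b0 u y) (abs_nonneg _) hC0
    have h01 := mul_le_mul (b0 u y) (b1 u y) (abs_nonneg _) hC0
    have h02 := mul_le_mul (b0 u y) (b2 u y) (abs_nonneg _) hC0
    have h11 := mul_le_mul (b1 u y) (b1 u y) (abs_nonneg _) hC0
    refine ⟨?_, ?_, ?_, ?_⟩
    · rw [abs_pow]; nlinarith
    · rw [abs_mul, abs_mul, abs_two]; nlinarith
    · rw [abs_mul, abs_two]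
      have := abs_add_le (hs h₁ u y * hs h₁ u y) (hs h u y * hs h₂ u y)
      rw [abs_mul, abs_mul] at this
      nlinarith
    · rw [abs_neg, abs_mul]; nlinarith

lemma integral_hs (hm : Measurable h) {C : ℝ} (hb : ∀ x, |h x| ≤ C) {t : ℝ}
    (ht : t ∈ Icc (0 : ℝ) 1) : ∫ z, hs h t (Real.sqrt t * z) ∂(gaussianReal 0 1) = ∫ z, h z ∂(gaussianReal 0 1) := by
  have hr := congrArg (fun m : Measure ℝ => ∫ x, h x ∂m)
    (gauss_rotate (s := t) (t := 1 - t) ht.1 (by linarith [ht.2]))
  rw [integral_map (by fun_prop) hm.aestronglyMeasurable,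
    integral_map (by fun_prop) hm.aestronglyMeasurable] at hr
  rw [integral_prod _ (bdd_int (by fun_prop : Measurable fun z : ℝ × ℝ =>
    h (Real.sqrt t * z.1 + Real.sqrt (1 - t) * z.2)) fun z => hb _)] at hr
  simpa [hs] using hr

lemma sqMean_le (hm : Measurable h) {C : ℝ} (hb : ∀ x, |h x| ≤ C) {t : ℝ}
    (ht : t ∈ Icc (0 : ℝ) 1) : sqMean h t ≤ ∫ z, h z ^ 2 ∂(gaussianReal 0 1) := by
  have hb2 : ∀ x, |h x ^ 2| ≤ C ^ 2 := fun x => by
    rw [abs_pow]; exact pow_le_pow_left₀ (abs_nonneg _) (hb x) 2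
  refine le_of_le_of_eq (integral_mono
    (bdd_int (((measurable_hs hm t).comp (by fun_prop)).pow_const 2) (C := C ^ 2) fun z => by
      rw [abs_pow]; exact pow_le_pow_left₀ (abs_nonneg _) (abs_hs_le hb _ _) 2)
    (int_hs (hm.pow_const 2) hb2 t (Real.sqrt t)) fun z => ?_)
    (integral_hs (hm.pow_const 2) hb2 ht)
  exact mean_sq_le (bdd_int (hm.comp (by fun_prop)) fun w => hb _)
    (bdd_int ((hm.comp (by fun_prop)).pow_const 2) fun w => hb2 _)

lemma integral_odd {g : ℝ → ℝ} (hg : ∀ x, g (-x) = -g x) (hm : Measurable g) :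
    ∫ z, g z ∂(gaussianReal 0 1) = 0 := by
  have h1 : ∫ z, g (-z) ∂(gaussianReal 0 1) = ∫ z, g z ∂(gaussianReal 0 1) := by
    rw [← integral_map (φ := fun z : ℝ => -z) (by fun_prop) hm.aestronglyMeasurable]
    simp [gaussianReal_map_neg]
  simp_rw [hg] at h1
  rw [integral_neg] at h1
  linarith

lemma hs_neg_odd (hg : ∀ x, h (-x) = -h x) (t y : ℝ) (hm : Measurable h) :
    hs h t (-y) = -hs h t y := by
  have hk := integral_map (μ := (gaussianReal 0 1)) (φ := fun z : ℝ => -z)
    (f := fun w => h (-y + Real.sqrt (1 - t) * w)) (by fun_prop)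
    (hm.comp (by fun_prop)).aestronglyMeasurable
  simp only [gaussianReal_map_neg, neg_zero] at hk
  simp only [hs]
  rw [hk, ← integral_neg]
  refine integral_congr_ae (ae_of_all _ fun w => ?_)
  simp only
  rw [← hg]
  congr 1
  ring

lemma hs_neg_even (hg : ∀ x, h (-x) = h x) (t y : ℝ) (hm : Measurable h) :
    hs h t (-y) = hs h t y := by
  have hk := integral_map (μ := (gaussianReal 0 1)) (φ := fun z : ℝ => -z)
    (f := fun w => h (-y + Real.sqrt (1 - t) * w)) (by fun_prop)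
    (hm.comp (by fun_prop)).aestronglyMeasurable
  simp only [gaussianReal_map_neg, neg_zero] at hk
  simp only [hs]
  rw [hk]
  refine integral_congr_ae (ae_of_all _ fun w => ?_)
  simp only
  rw [← hg (y + _)]
  congr 1
  ring

/-- Gaussian Poincaré inequality for odd functions. -/
lemma poincare {g g₁ g₂ : ℝ → ℝ} (S : Sm g g₁ g₂) (hodd : ∀ x, g (-x) = -g x) :
    ∫ z, g z ^ 2 ∂(gaussianReal 0 1) ≤ ∫ z, g₁ z ^ 2 ∂(gaussianReal 0 1) := by
  obtain ⟨C, hC⟩ := S.bdd
  obtain ⟨s, hs', he⟩ := exists_hasDerivAt_eq_slope (sqMean g) (sqMean g₁) zero_lt_one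
    S.continuous_sqMean.continuousOn fun t ht => S.deriv_sqMean ht
  rw [sqMean_one, sqMean_zero, integral_odd hodd S.cont.measurable] at he
  have := sqMean_le S.cont1.measurable (fun x => (hC x).2.1) (Ioo_subset_Icc_self hs')
  rw [he] at this
  simpa using this

/-- Poincaré at variance `t`. -/
lemma poincare_scaled {P P₁ P₂ : ℝ → ℝ} (S : Sm P P₁ P₂) (hodd : ∀ x, P (-x) = -P x) {t : ℝ}
    (ht : t ∈ Icc (0 : ℝ) 1) :
    ∫ z, P (Real.sqrt t * z) ^ 2 ∂(gaussianReal 0 1) ≤ t * ∫ z, P₁ (Real.sqrt t * z) ^ 2 ∂(gaussianReal 0 1) := by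
  obtain ⟨C, hC⟩ := S.bdd
  have hd : ∀ z, HasDerivAt (fun z => Real.sqrt t * z) (Real.sqrt t) z := fun z => by
    simpa using (hasDerivAt_id z).const_mul (Real.sqrt t)
  have hs1 := Real.sqrt_le_one.2 ht.2
  have S' : Sm (fun z => P (Real.sqrt t * z)) (fun z => P₁ (Real.sqrt t * z) * Real.sqrt t)
      (fun z => P₂ (Real.sqrt t * z) * Real.sqrt t * Real.sqrt t) := by
    refine ⟨fun z => (S.d0 _).comp z (hd z), fun z => ((S.d1 _).comp z (hd z)).mul_const _,
      C, fun z => ⟨(hC _).1, ?_, ?_⟩⟩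
    · rw [abs_mul, abs_of_nonneg (Real.sqrt_nonneg t)]
      exact (mul_le_of_le_one_right (abs_nonneg _) hs1).trans (hC _).2.1
    · rw [abs_mul, abs_mul, abs_of_nonneg (Real.sqrt_nonneg t)]
      exact ((mul_le_of_le_one_right (by positivity) hs1).trans
        (mul_le_of_le_one_right (abs_nonneg _) hs1)).trans (hC _).2.2
  have := poincare S' fun z => by rw [mul_neg, hodd]
  refine this.trans (le_of_eq ?_)
  simp only [mul_pow, Real.sq_sqrt ht.1]
  rw [integral_mul_const]
  ring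

section Cov

variable {f f₁ f₂ f₃ : ℝ → ℝ}

/-- For an even potential the mean square of the flow of the derivative grows at least linearly. -/
lemma deriv_mean_le (S : Sm f₁ f₂ f₃) (hodd : ∀ x, f₁ (-x) = -f₁ x) {t : ℝ}
    (ht : t ∈ Icc (0 : ℝ) 1) : sqMean f₁ t ≤ t * ∫ z, f₁ z ^ 2 ∂(gaussianReal 0 1) := by
  obtain ⟨C, hC⟩ := S.bdd
  rcases ht.1.eq_or_lt with h0 | h0
  · subst h0
    rw [sqMean_zero, integral_odd hodd S.cont.measurable]
    simp
  set w := fun u => sqMean f₁ u / u with hw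
  have hmono : MonotoneOn w (Icc t 1) := by
    refine monotoneOn_of_hasDerivWithinAt_nonneg
      (f' := fun u => (sqMean f₂ u * u - sqMean f₁ u * 1) / u ^ 2) (convex_Icc _ _)
      (S.continuous_sqMean.continuousOn.div continuousOn_id
        fun u hu => ne_of_gt (h0.trans_le hu.1)) (fun u hu => ?_) (fun u hu => ?_) <;>
      rw [interior_Icc] at hu
    · exact ((S.deriv_sqMean ⟨h0.trans hu.1, hu.2⟩).div (hasDerivAt_id u)
        (ne_of_gt (h0.trans hu.1))).hasDerivWithinAt
    · have hu' : u ∈ Ioo (0 : ℝ) 1 := ⟨h0.trans hu.1, hu.2⟩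
      refine div_nonneg ?_ (sq_nonneg _)
      have Sh : Sm (hs f₁ u) (hs f₂ u) (hs f₃ u) :=
        ⟨fun y => S.deriv_y u y, fun y => S.deriv_y1 u y, C, fun y =>
          ⟨abs_hs_le (fun x => (hC x).1) _ _, abs_hs_le (fun x => (hC x).2.1) _ _,
            abs_hs_le (fun x => (hC x).2.2) _ _⟩⟩
      have hp := poincare_scaled Sh (fun y => hs_neg_odd hodd u y S.cont.measurable)
        (Ioo_subset_Icc_self hu')
      simp only [sqMean] at hp ⊢
      linarith
  have := hmono (left_mem_Icc.2 ht.2) (right_mem_Icc.2 ht.2) ht.2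
  simp only [hw, div_one, sqMean_one] at this
  rw [div_le_iff₀ h0] at this
  linarith

lemma variance_le_half (S : Sm f f₁ f₂) (S₁ : Sm f₁ f₂ f₃) (hodd : ∀ x, f₁ (-x) = -f₁ x)
    (h0 : ∫ z, f z ∂(gaussianReal 0 1) = 0) : ∫ z, f z ^ 2 ∂(gaussianReal 0 1) ≤ (∫ z, f₁ z ^ 2 ∂(gaussianReal 0 1)) / 2 := by
  set X := ∫ z, f₁ z ^ 2 ∂(gaussianReal 0 1)
  have hmono : AntitoneOn (fun t => sqMean f t - t ^ 2 * X / 2) (Icc 0 1) := by
    refine antitoneOn_of_hasDerivWithinAt_nonpos (f' := fun t => sqMean f₁ t - t * X)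
      (convex_Icc _ _) (S.continuous_sqMean.sub (by fun_prop)).continuousOn
      (fun t ht => ?_) (fun t ht => ?_) <;> rw [interior_Icc] at ht
    · refine (((S.deriv_sqMean ht).sub
        (((hasDerivAt_pow 2 t).mul_const X).div_const 2)).congr_deriv ?_).hasDerivWithinAt
      simp
      ring
    · linarith [deriv_mean_le S₁ hodd (Ioo_subset_Icc_self ht)]
  have := hmono (left_mem_Icc.2 zero_le_one) (right_mem_Icc.2 zero_le_one) zero_le_one
  simp only [sqMean_one, sqMean_zero, h0] at this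
  linarith

/-- The covariance of an even potential lies above the tangent at `1`. -/
lemma cov_ge (S : Sm f f₁ f₂) {R : ℝ} (hR : R ∈ Icc (0 : ℝ) 1) :
    (∫ z, f z ^ 2 ∂(gaussianReal 0 1)) - (1 - R) * ∫ z, f₁ z ^ 2 ∂(gaussianReal 0 1) ≤ sqMean f R := by
  obtain ⟨C, hC⟩ := S.bdd
  set X := ∫ z, f₁ z ^ 2 ∂(gaussianReal 0 1)
  have hmono : AntitoneOn (fun t => sqMean f t - t * X) (Icc 0 1) := by
    refine antitoneOn_of_hasDerivWithinAt_nonpos (f' := fun t => sqMean f₁ t - 1 * X)
      (convex_Icc _ _) (S.continuous_sqMean.sub (by fun_prop)).continuousOn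
      (fun t ht => ?_) (fun t ht => ?_) <;> rw [interior_Icc] at ht
    · exact ((S.deriv_sqMean ht).sub ((hasDerivAt_id t).mul_const X)).hasDerivWithinAt
    · linarith [sqMean_le S.cont1.measurable (fun x => (hC x).2.1) (Ioo_subset_Icc_self ht)]
  have := hmono hR (right_mem_Icc.2 zero_le_one) hR.2
  simp only [sqMean_one] at this
  linarith

end Cov

end Vale.Agent.P157.Rsb
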